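import Vale.Agent.P321.R3.H101.NoPhase7

/-! # The chain of pairs -/

namespace Vale.Agent.P321.R3.H101

open Complex Finset Vale.Agent.P321.UB

theorem strip_unit {x y c : ℂ} {d : ℝ} (hy : ‖y‖ = 1) (hc : ‖c‖ = 1)
    (h : ‖x * starRingEnd ℂ y * starRingEnd ℂ c - 1‖ ≤ d) : ‖x - y * c‖ ≤ d := by
  have jy := unit_conj hy
  have jc := unit_conj hc
  have e : x - y * c = (x * starRingEnd ℂ y * starRingEnd ℂ c - 1) * (y * c) := by
    linear_combination (-x) * jy + (-x * (y * starRingEnd ℂ y)) * jc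
  rw [e, norm_mul, norm_mul, hy, hc]
  simpa using h

theorem link {x e y f c x' e' c' : ℂ} {d : ℝ} (he : ‖e‖ = 1) (hy : ‖y‖ = 1)
    (hc : ‖c‖ = 1) (he' : ‖e'‖ = 1) (hc' : ‖c'‖ = 1)
    (h1 : ‖x * starRingEnd ℂ y * starRingEnd ℂ c - 1‖ ≤ d)
    (h2 : ‖f * starRingEnd ℂ e * starRingEnd ℂ c - 1‖ ≤ d)
    (h3 : ‖x' * starRingEnd ℂ y * starRingEnd ℂ c' - 1‖ ≤ d)
    (h4 : ‖f * starRingEnd ℂ e' * starRingEnd ℂ c' - 1‖ ≤ d) :
    ‖x * e - x' * e'‖ ≤ 4 * d := by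
  have k1 := strip_unit hy hc h1
  have k2 := strip_unit he hc h2
  have k3 := strip_unit hy hc' h3
  have k4 := strip_unit he' hc' h4
  have e0 : x * e - x' * e' = (x - y * c) * e - y * (f - e * c) - ((x' - y * c') * e' -
      y * (f - e' * c')) := by ring
  rw [e0]
  have b1 : ‖(x - y * c) * e‖ ≤ d := by rw [norm_mul, he, mul_one]; exact k1
  have b2 : ‖y * (f - e * c)‖ ≤ d := by rw [norm_mul, hy, one_mul]; exact k2
  have b3 : ‖(x' - y * c') * e'‖ ≤ d := by rw [norm_mul, he', mul_one]; exact k3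
  have b4 : ‖y * (f - e' * c')‖ ≤ d := by rw [norm_mul, hy, one_mul]; exact k4
  calc _ ≤ ‖(x - y * c) * e - y * (f - e * c)‖ + ‖(x' - y * c') * e' - y * (f - e' * c')‖ :=
        norm_sub_le _ _
    _ ≤ (‖(x - y * c) * e‖ + ‖y * (f - e * c)‖) + (‖(x' - y * c') * e'‖ + ‖y * (f - e' * c')‖) :=
        add_le_add (norm_sub_le _ _) (norm_sub_le _ _)
    _ ≤ 4 * d := by linarith

theorem close_of_phase {z w : ℂ} {ρ : ℝ} (hρ : 0 < ρ) (hz : z ≠ 0) (hw : w ≠ 0)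
    (hmod : |‖z‖ - ‖w‖| ≤ ρ * mx z w / 2) (hu : ‖uu z w - 1‖ ≤ ρ / 4) :
    ‖z - w‖ < ρ * mx z w := by
  have hm : 0 < mx z w := lt_of_lt_of_le (norm_pos_iff.2 hz) (le_max_left _ _)
  have j := unit_conj (ph_norm hz)
  have e : z - w = -(ph z * (uu z w - 1)) * ‖z‖ + ph w * ((‖z‖ : ℂ) - ‖w‖) := by
    have f1 : ph z * ‖z‖ = z := by
      unfold ph
      rw [div_mul_cancel₀]
      exact_mod_cast (norm_ne_zero_iff.2 hz)
    have f2 : ph w * ‖w‖ = w := by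
      unfold ph
      rw [div_mul_cancel₀]
      exact_mod_cast (norm_ne_zero_iff.2 hw)
    calc z - w = ph z * ‖z‖ - ph w * ‖w‖ := by rw [f1, f2]
      _ = _ := by
        unfold uu
        linear_combination (ph w * (‖z‖ : ℂ)) * j
  rw [e]
  refine lt_of_le_of_lt (norm_add_le _ _) ?_
  rw [norm_mul, norm_neg, norm_mul, ph_norm hz, one_mul, norm_mul, ph_norm hw, one_mul,
    ← Complex.ofReal_sub, Complex.norm_real, Complex.norm_real, norm_norm, Real.norm_eq_abs]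
  have h1 : ‖uu z w - 1‖ * ‖z‖ ≤ ρ / 4 * mx z w :=
    mul_le_mul hu (le_max_left _ _) (norm_nonneg _) (by positivity)
  have h2 : 0 < ρ * mx z w := by positivity
  linarith

section
variable {H : ℕ} {W W' : ℤ → ℂ} {φ : ℕ → ℝ} {T Δ : ℝ}

/-- One link of the chain. -/
theorem Cells.link_step (C : Cells H W W' φ T Δ) (hH : 4 ≤ H) {ρ T1 : ℝ} (hρ : 0 < ρ)
    (hT1 : 2 * T1 ≤ T)
    (hG : ∀ k : ℤ, -(H + 1) ≤ k → k ≤ H → ph0 φ k ≤ T - T1 →
      Real.exp (-(ph0 φ k)) ≤ ρ * mx (W k) (W' k))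
    {z : ℕ} (hz : 2 * z ≤ H + 1) {x x' y : ℤ} (x1 : (z : ℤ) - H ≤ x) (x2 : x ≤ z + H - 1)
    (hx : ph0 φ x + ph0 φ (2 * z - 1 - x) ≤ T1)
    (x1' : (z : ℤ) + 1 - H ≤ x') (x2' : x' ≤ z + H)
    (hx' : ph0 φ x' + ph0 φ (2 * z + 1 - x') ≤ T1)
    (y1 : (z : ℤ) - H ≤ y) (y2 : y ≤ z + H - 1)
    (hy : ph0 φ y + ph0 φ (2 * z - 1 - y) + ph0 φ (x - y) + ph0 φ (x' - y) ≤ T - T1) :
    ‖UU W W' x * UU W W' (2 * z - 1 - x) - UU W W' x' * UU W W' (2 * z + 1 - x')‖ ≤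
      4 * (64 * Δ * Real.exp T * ρ) := by
  have nn : ∀ k, 0 ≤ ph0 φ k := fun k => ph0_nonneg C.hφ k
  have n1 := nn x
  have n2 := nn (2 * z - 1 - x)
  have n3 := nn x'
  have n4 := nn (2 * z + 1 - x')
  have n5 := nn y
  have n6 := nn (2 * z - 1 - y)
  have n7 := nn (x - y)
  have n8 := nn (x' - y)
  have hGG : ∀ a b c : ℤ, ph0 φ a ≤ T - T1 → ph0 φ b ≤ T - T1 → ph0 φ c ≤ T - T1 →
      ((-(H + 1) ≤ a ∧ a ≤ H) ∨ (-(H + 1) ≤ b ∧ b ≤ H) ∨ (-(H + 1) ≤ c ∧ c ≤ H)) →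
      Real.exp (-(ph0 φ a)) ≤ ρ * mx (W a) (W' a) ∨
      Real.exp (-(ph0 φ b)) ≤ ρ * mx (W b) (W' b) ∨
      Real.exp (-(ph0 φ c)) ≤ ρ * mx (W c) (W' c) := by
    intro a b c ha hb hc h
    rcases h with h | h | h
    · exact Or.inl (hG a h.1 h.2 ha)
    · exact Or.inr (Or.inl (hG b h.1 h.2 hb))
    · exact Or.inr (Or.inr (hG c h.1 h.2 hc))
  have R1 := C.rel (a := x) (b := -y - 1) (c := -(x - y) - 1) (by omega) hρ (by omega) (by omega)
    (by omega) (by omega) (by omega) (by omega) (by omega) (by omega)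
    (by rw [ph0_neg, ph0_neg]; linarith)
    (hGG _ _ _ (by linarith) (by rw [ph0_neg]; linarith) (by rw [ph0_neg]; linarith) (by omega))
  have R2 := C.rel (a := 2 * z - 1 - y) (b := -(2 * z - 1 - x) - 1) (c := -(x - y) - 1)
    (by omega) hρ (by omega) (by omega)
    (by omega) (by omega) (by omega) (by omega) (by omega) (by omega)
    (by rw [ph0_neg, ph0_neg]; linarith)
    (hGG _ _ _ (by linarith) (by rw [ph0_neg]; linarith) (by rw [ph0_neg]; linarith) (by omega))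
  have R3 := C.rel (a := x') (b := -y - 1) (c := -(x' - y) - 1) (by omega) hρ (by omega)
    (by omega) (by omega) (by omega) (by omega) (by omega) (by omega) (by omega)
    (by rw [ph0_neg, ph0_neg]; linarith)
    (hGG _ _ _ (by linarith) (by rw [ph0_neg]; linarith) (by rw [ph0_neg]; linarith) (by omega))
  have R4 := C.rel (a := 2 * z - 1 - y) (b := -(2 * z + 1 - x') - 1) (c := -(x' - y) - 1)
    (by omega) hρ (by omega) (by omega)
    (by omega) (by omega) (by omega) (by omega) (by omega) (by omega)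
    (by rw [ph0_neg, ph0_neg]; linarith)
    (hGG _ _ _ (by linarith) (by rw [ph0_neg]; linarith) (by rw [ph0_neg]; linarith) (by omega))
  simp only [C.UU_neg, RCLike.norm_conj] at R1 R2 R3 R4
  exact link R2.2.1 R1.2.1 R1.2.2.1 R4.2.1 R3.2.2.1 R1.2.2.2 R2.2.2.2 R3.2.2.2 R4.2.2.2

end

end Vale.Agent.P321.R3.H101
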