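import Vale.Agent.P321.R3.H101.Chain7
import Vale.Agent.P321.R3.H524.Sums7

/-! # The no-phase lemma with costs -/

namespace Vale.Agent.P321.R3.H101

open Complex Finset Vale.Agent.P321.UB

theorem ph0_eq (φ : ℕ → ℝ) (k : ℤ) : R3.H524.ph0 φ k = ph0 φ k := rfl

section
variable {H : ℕ} {W W' : ℤ → ℂ} {φ : ℕ → ℝ} {T Δ : ℝ}

/-- The chain: the pair of every `z` has phase close to `1`. -/
theorem Cells.chain (C : Cells H W W' φ T Δ) (hH : 4 ≤ H) {ρ T1 : ℝ} (hρ : 0 < ρ)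
    (hT1 : 2 * T1 ≤ T)
    (hG : ∀ k : ℤ, -(H + 1) ≤ k → k ≤ H → ph0 φ k ≤ T - T1 →
      Real.exp (-(ph0 φ k)) ≤ ρ * mx (W k) (W' k))
    {X : ℕ → ℤ} (hX : ∀ z : ℕ, 2 * z ≤ H + 3 → (z : ℤ) - H ≤ X z ∧ X z ≤ z + H - 1 ∧
      ph0 φ (X z) + ph0 φ (2 * z - 1 - X z) ≤ T1)
    (hY : ∀ z : ℕ, 2 * z ≤ H + 1 → ∀ x x' : ℤ, (z : ℤ) - H ≤ x → x ≤ z + H - 1 →
      (z : ℤ) + 1 - H ≤ x' → x' ≤ z + H →
      ∃ y : ℤ, (z : ℤ) - H ≤ y ∧ y ≤ z + H - 1 ∧
        ph0 φ y + ph0 φ (2 * z - 1 - y) + ph0 φ (x - y) + ph0 φ (x' - y) ≤ T - T1) :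
    ∀ z : ℕ, 2 * z ≤ H + 1 →
      ‖UU W W' (X z) * UU W W' (2 * z - 1 - X z) - 1‖ ≤ 4 * z * (64 * Δ * Real.exp T * ρ) := by
  intro z
  induction z with
  | zero =>
    intro _
    obtain ⟨a1, a2, a3⟩ := hX 0 (by omega)
    have n2 := ph0_nonneg C.hφ (2 * ((0 : ℕ) : ℤ) - 1 - X 0)
    have hu := C.unit_of_low (k := X 0) (by omega) (by omega) (by omega) (by linarith)
    have e : (2 * ((0 : ℕ) : ℤ) - 1 - X 0) = -X 0 - 1 := by push_cast; ring
    rw [e, C.UU_neg, unit_conj hu]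
    simp
  | succ z ih =>
    intro hz
    have h1 := ih (by omega)
    obtain ⟨a1, a2, a3⟩ := hX z (by omega)
    obtain ⟨b1, b2, b3⟩ := hX (z + 1) (by omega)
    push_cast at b1 b2 b3
    have eb : (2 * ((z : ℤ) + 1) - 1 - X (z + 1)) = 2 * z + 1 - X (z + 1) := by ring
    rw [eb] at b3
    obtain ⟨y, y1, y2, y3⟩ := hY z (by omega) (X z) (X (z + 1)) a1 a2 (by omega) (by omega)
    have h2 := C.link_step hH hρ hT1 hG (z := z) (by omega) a1 a2 a3 (by omega) (by omega)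
      b3 y1 y2 y3
    push_cast
    rw [eb]
    have h3 := norm_sub_le_norm_sub_add_norm_sub
      (UU W W' (X (z + 1)) * UU W W' (2 * z + 1 - X (z + 1)))
      (UU W W' (X z) * UU W W' (2 * z - 1 - X z)) 1
    have e4 : 4 * ((z : ℝ) + 1) * (64 * Δ * Real.exp T * ρ) =
      4 * (64 * Δ * Real.exp T * ρ) + 4 * z * (64 * Δ * Real.exp T * ρ) := by ring
    rw [e4]
    refine h3.trans (add_le_add ?_ h1)
    rw [norm_sub_rev]
    exact h2

/-- **No phases.** -/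
theorem no_phase7 (hH : 4 ≤ H) (C : Cells H W W' φ T Δ)
    (hsum : 6 * (∑ j ∈ range (H + 1), φ j) + 4 * (∑ j ∈ range (H + (H + 7) / 2), φ j) +
      2 * (∑ j ∈ range (2 * H + 1), φ j) ≤ 2 * H * T) : False := by
  classical
  set T1 : ℝ := R3.H524.T1 φ H with hT1def
  have hT1 : 2 * T1 ≤ T := R3.H524.two_T1_le C.hφ hH hsum
  have hT10 : 0 ≤ T1 := R3.H524.T1_nonneg C.hφ H
  have hHR : (4 : ℝ) ≤ H := by exact_mod_cast hH
  have hΔ := C.hΔ
  have hsm : 10 ^ 6 * Δ < Real.exp (-T) := by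
    have h1 := C.hsmall
    have h2 : 10 ^ 6 * Δ ≤ 10 ^ 6 * H * Δ := by
      have := mul_le_mul_of_nonneg_right (by linarith : (1 : ℝ) ≤ H) C.hΔ
      nlinarith
    linarith
  -- pairs
  have hXex : ∀ z : ℕ, ∃ x : ℤ, 2 * z ≤ H + 3 → ((z : ℤ) - H ≤ x ∧ x ≤ z + H - 1 ∧
      ph0 φ x + ph0 φ (2 * z - 1 - x) ≤ T1) := by
    intro z
    by_cases hz : 2 * z ≤ H + 3
    · obtain ⟨x, hx⟩ := R3.H524.pair_a C.hφ hH hz
      exact ⟨x, fun _ => hx⟩
    · exact ⟨0, fun h => absurd h hz⟩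
  choose X hX using hXex
  have hY : ∀ z : ℕ, 2 * z ≤ H + 1 → ∀ x x' : ℤ, (z : ℤ) - H ≤ x → x ≤ z + H - 1 →
      (z : ℤ) + 1 - H ≤ x' → x' ≤ z + H →
      ∃ y : ℤ, (z : ℤ) - H ≤ y ∧ y ≤ z + H - 1 ∧
        ph0 φ y + ph0 φ (2 * z - 1 - y) + ph0 φ (x - y) + ph0 φ (x' - y) ≤ T - T1 :=
    fun z hz x x' h1 h2 h3 h4 => R3.H524.quad_b C.hφ hH hsum hz h1 h2 h3 h4
  -- amplitudes
  have hmpos : ∀ j : ℕ, j ≤ 2 * H → 0 < mx (W j) (W' j) := by
    intro j hj
    have h1 := mx_ge (C.h0 j hj)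
    have h2 := Real.exp_pos (-(φ j))
    linarith
  -- the reference cell
  set G : Finset ℕ := (range (H + 1)).filter fun a => φ a ≤ T - T1 with hG
  have hGne : G.Nonempty := by
    obtain ⟨a, ha, ha2⟩ := R3.H524.single_c C.hφ hH hsum
    exact ⟨a, Finset.mem_filter.2 ⟨mem_range.2 (by omega), ha2⟩⟩
  obtain ⟨a0, ha0, hmax⟩ := exists_max_image G
    (fun a : ℕ => Real.exp (-(φ a)) / mx (W a) (W' a)) hGne
  obtain ⟨ha0r, ha0T⟩ := Finset.mem_filter.1 ha0
  have ha0H : a0 ≤ H := by have := mem_range.1 ha0r; omega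
  set ρ : ℝ := Real.exp (-(φ a0)) / mx (W a0) (W' a0) with hρdef
  have hm0 := hmpos a0 (by omega)
  have hρ : 0 < ρ := div_pos (Real.exp_pos _) hm0
  have hρm : ρ * mx (W a0) (W' a0) = Real.exp (-(φ a0)) := by
    rw [hρdef]; field_simp
  have hGk : ∀ k : ℤ, -(H + 1) ≤ k → k ≤ H → ph0 φ k ≤ T - T1 →
      Real.exp (-(ph0 φ k)) ≤ ρ * mx (W k) (W' k) := by
    have hnat : ∀ a : ℕ, a ≤ H → φ a ≤ T - T1 →
        Real.exp (-(φ a)) ≤ ρ * mx (W a) (W' a) := by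
      intro a ha haT
      have h1 := hmax a (Finset.mem_filter.2 ⟨mem_range.2 (by omega), haT⟩)
      rwa [div_le_iff₀ (hmpos a (by omega))] at h1
    intro k k1 k2 hk
    by_cases h : 0 ≤ k
    · have e : ((k.toNat : ℕ) : ℤ) = k := Int.toNat_of_nonneg h
      have e2 : ph0 φ k = φ k.toNat := by unfold ph0; rw [if_pos h]
      have := hnat k.toNat (by omega) (by rw [← e2]; exact hk)
      rw [e] at this
      rw [e2]
      exact this
    · have e : (((-k - 1).toNat : ℕ) : ℤ) = -k - 1 := Int.toNat_of_nonneg (by omega)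
      have e2 : ph0 φ k = φ (-k - 1).toNat := by unfold ph0; rw [if_neg h]
      have := hnat (-k - 1).toNat (by omega) (by rw [← e2]; exact hk)
      rw [e, C.mx_neg] at this
      rw [e2]
      exact this
  have hchain := C.chain hH hρ hT1 hGk hX hY
  -- the end of the chain
  set z : ℕ := (a0 + 1) / 2 with hz
  have hz2 : 2 * z ≤ H + 1 := by omega
  obtain ⟨x1, x2, x3⟩ := hX z (by omega)
  set e : ℤ := 2 * z - 1 - X z with he
  have nx := ph0_nonneg C.hφ (X z)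
  have ne := ph0_nonneg C.hφ e
  have hra := C.rel (a := X z) (b := e) (c := -(a0 : ℤ) - 1) (by omega) hρ (by omega) (by omega)
    (by omega) (by omega) (by omega) (by omega) (by omega) (by omega)
    (by rw [ph0_neg, ph0_nat]; linarith)
    (Or.inr (Or.inr (hGk _ (by omega) (by omega) (by rw [ph0_neg, ph0_nat]; exact ha0T))))
  have htr := C.htr (X z) e (-(a0 : ℤ) - 1) (by omega) (by omega) (by omega) (by omega) (by omega)
    (by omega) (by omega) (by omega)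
  obtain ⟨u1, u2, u3, u4⟩ := hra
  rw [C.UU_neg, RCLike.norm_conj] at u3
  rw [C.UU_neg] at u4
  set δ : ℝ := 64 * Δ * Real.exp T * ρ with hδ
  have hδ0 : 0 ≤ δ := by
    have := (Real.exp_pos T).le
    positivity
  have hc := hchain z hz2
  have hclose : ‖UU W W' a0 - 1‖ ≤ (4 * z + 1) * δ := by
    have j := unit_conj u3
    have e1 : UU W W' a0 - 1 = (UU W W' (X z) * UU W W' e - 1) -
        (UU W W' (X z) * UU W W' e * starRingEnd ℂ (UU W W' a0) - 1) * UU W W' a0 := by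
      linear_combination (UU W W' (X z) * UU W W' e) * j
    rw [e1]
    refine (norm_sub_le _ _).trans ?_
    rw [norm_mul, u3, mul_one]
    calc _ ≤ 4 * z * δ + δ := add_le_add hc u4
      _ = _ := by ring
  -- smallness
  have hzR : (4 * (z : ℝ) + 1) ≤ 3 * H := by
    have : 4 * z + 1 ≤ 3 * H := by omega
    exact_mod_cast this
  have hee : Real.exp T * Real.exp (-T) = 1 := by rw [← Real.exp_add]; simp
  have hδs : (4 * (z : ℝ) + 1) * δ ≤ ρ / 4 := by
    have h1 : (4 * (z : ℝ) + 1) * δ ≤ 3 * H * δ := mul_le_mul_of_nonneg_right hzR hδ0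
    have h2 : 3 * H * δ = (192 * (H * Δ)) * Real.exp T * ρ := by rw [hδ]; ring
    have h3 : 768 * (H * Δ) ≤ Real.exp (-T) := by
      have := C.hsmall
      have h4 : 0 ≤ H * Δ := by positivity
      nlinarith
    have h4 : (768 * (H * Δ)) * Real.exp T ≤ 1 := by
      rw [← hee, mul_comm (Real.exp T)]
      exact mul_le_mul_of_nonneg_right h3 (Real.exp_pos T).le
    have h5 : (192 * (H * Δ)) * Real.exp T * ρ = ((768 * (H * Δ)) * Real.exp T) * (ρ / 4) := by ring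
    rw [h2, h5] at h1
    refine h1.trans ?_
    exact mul_le_of_le_one_left (by positivity) h4
  -- the modulus
  have hprod : Real.exp (-T1) ≤ Real.exp (-(ph0 φ (X z))) * Real.exp (-(ph0 φ e)) := by
    rw [← Real.exp_add]
    apply Real.exp_le_exp.2
    linarith
  have hle1 : ∀ k, Real.exp (-(ph0 φ k)) ≤ 1 := fun k =>
    Real.exp_le_one_iff.2 (by linarith [ph0_nonneg C.hφ k])
  have hmod := modulus (a := W a0) (a' := W' a0) (x := W (X z)) (x' := W' (X z)) (y := W e)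
    (y' := W' e) (e0 := Real.exp (-(φ a0))) (ex := Real.exp (-(ph0 φ (X z))))
    (ey := Real.exp (-(ph0 φ e))) (t1 := Real.exp (-T1)) (ET := Real.exp (-T)) hΔ
    (Real.exp_pos _) (Real.exp_pos _) (Real.exp_pos _) (hle1 _) (hle1 _) (Real.exp_pos _) hprod
    (by rw [← Real.exp_add]; apply Real.exp_le_exp.2; linarith)
    (by rw [← Real.exp_nat_mul]; apply Real.exp_le_exp.2; push_cast; linarith)
    (by linarith) (C.h0 a0 (by omega)) (C.z0 (by omega) (by omega)) (C.z0 (by omega) (by omega))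
    (C.hsq a0 (by omega)) (C.zsq (by omega) (by omega)) (C.zsq (by omega) (by omega))
    (by
      have h1 := (abs_norm_sub_norm_le (W (X z) * W e * W (-(a0 : ℤ) - 1))
        (W' (X z) * W' e * W' (-(a0 : ℤ) - 1))).trans htr
      rw [C.hc, C.hc', norm_mul, norm_mul, norm_mul, norm_mul, RCLike.norm_conj,
        RCLike.norm_conj] at h1
      have e1 : ‖W a0‖ * (‖W (X z)‖ * ‖W e‖) - ‖W' a0‖ * (‖W' (X z)‖ * ‖W' e‖) =
          ‖W (X z)‖ * ‖W e‖ * ‖W a0‖ - ‖W' (X z)‖ * ‖W' e‖ * ‖W' a0‖ := by ring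
      rw [e1]
      exact h1)
  -- nonzero
  have hn0 : W a0 ≠ 0 ∧ W' a0 ≠ 0 := by
    constructor
    · intro h
      have : UU W W' a0 = 0 := by simp [UU, uu, ph, h]
      rw [this] at u3
      simp at u3
    · intro h
      have : UU W W' a0 = 0 := by simp [UU, uu, ph, h]
      rw [this] at u3
      simp at u3
  have hfin := close_of_phase hρ hn0.1 hn0.2 (by
    rw [hρm]
    have := Real.exp_pos (-(φ a0))
    linarith) (hclose.trans hδs)
  rw [hρm] at hfin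
  exact absurd (C.h0 a0 (by omega)) (not_le.2 hfin)

end

end Vale.Agent.P321.R3.H101
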