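import Vale.Agent.P321.R3.H101.Rel7

/-! # The moduli agree at the reference cell -/

namespace Vale.Agent.P321.R3.H101

open Complex Finset Vale.Agent.P321.UB

theorem norm_diff_mul_mx {z z' : ℂ} {Δ : ℝ} (hq : |‖z‖ ^ 2 - ‖z'‖ ^ 2| ≤ Δ) :
    |‖z‖ - ‖z'‖| * mx z z' ≤ Δ := by
  have n1 := norm_nonneg z
  have n2 := norm_nonneg z'
  have h1 : mx z z' ≤ ‖z‖ + ‖z'‖ := by
    unfold mx
    exact max_le (by linarith) (by linarith)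
  have h2 : ‖z‖ ^ 2 - ‖z'‖ ^ 2 = (‖z‖ - ‖z'‖) * (‖z‖ + ‖z'‖) := by ring
  rw [h2, abs_mul, abs_of_nonneg (by positivity : (0 : ℝ) ≤ ‖z‖ + ‖z'‖)] at hq
  exact (mul_le_mul_of_nonneg_left h1 (abs_nonneg _)).trans hq

theorem modulus_aux {e0 t1 ET Δ m R : ℝ} (hΔ : 0 ≤ Δ) (h0 : 0 < e0) (ht1 : 0 < t1) (hm0 : 0 < m)
    (hB : m * e0 ≤ 4 * Δ) (hK : 1000 * Δ ≤ ET) (h0t : ET ≤ e0 * t1) (hR : R = 4 * Δ / t1 ^ 2) :
    8 * m * R ≤ e0 / 10 := by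
  have h1 : m * e0 * R * t1 ^ 2 ≤ 16 * Δ ^ 2 := by
    have e1 : m * e0 * R * t1 ^ 2 = (m * e0) * (4 * Δ) := by rw [hR]; field_simp
    rw [e1]
    calc (m * e0) * (4 * Δ) ≤ (4 * Δ) * (4 * Δ) := by gcongr
      _ = 16 * Δ ^ 2 := by ring
  have h2 : (1000 * Δ) ^ 2 ≤ (e0 * t1) ^ 2 :=
    pow_le_pow_left₀ (by positivity) (hK.trans h0t) 2
  have h4 : (1000 * Δ) ^ 2 = 1000000 * Δ ^ 2 := by ring
  have h5 : 0 ≤ Δ ^ 2 := sq_nonneg Δ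
  have h3 : (8 * m * R) * (e0 * t1 ^ 2) ≤ (e0 / 10) * (e0 * t1 ^ 2) := by
    have e1 : (8 * m * R) * (e0 * t1 ^ 2) = 8 * (m * e0 * R * t1 ^ 2) := by ring
    have e2 : (e0 / 10) * (e0 * t1 ^ 2) = (e0 * t1) ^ 2 / 10 := by ring
    rw [e1, e2]
    rw [h4] at h2
    linarith
  exact le_of_mul_le_mul_right h3 (by positivity)

theorem modulus {a a' x x' y y' : ℂ} {e0 ex ey t1 ET Δ : ℝ} (hΔ : 0 ≤ Δ) (h0 : 0 < e0)
    (hx0 : 0 < ex) (hy0 : 0 < ey) (hx1 : ex ≤ 1) (hy1 : ey ≤ 1) (ht1 : 0 < t1)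
    (hxy : t1 ≤ ex * ey) (h0t : ET ≤ e0 * t1) (htt : ET ≤ t1 ^ 2)
    (hK : 1000 * Δ ≤ ET)
    (ha : e0 ≤ ‖a - a'‖) (hx : ex ≤ ‖x - x'‖) (hy : ey ≤ ‖y - y'‖)
    (hqa : |‖a‖ ^ 2 - ‖a'‖ ^ 2| ≤ Δ) (hqx : |‖x‖ ^ 2 - ‖x'‖ ^ 2| ≤ Δ)
    (hqy : |‖y‖ ^ 2 - ‖y'‖ ^ 2| ≤ Δ)
    (htr : |‖a‖ * (‖x‖ * ‖y‖) - ‖a'‖ * (‖x'‖ * ‖y'‖)| ≤ Δ) :
    |‖a‖ - ‖a'‖| ≤ e0 / 4 := by
  have m0 := mx_ge ha
  have mx1 := mx_ge hx
  have my1 := mx_ge hy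
  have hda := norm_diff_mul_mx hqa
  have hdx := norm_diff_mul_mx hqx
  have hdy := norm_diff_mul_mx hqy
  set m := mx a a' with hm
  set p := mx x x' with hp
  set q := mx y y' with hq
  have hm0 : 0 < m := by linarith
  have hp0 : 0 < p := by linarith
  have hq0 : 0 < q := by linarith
  rcases le_or_gt (4 * Δ) (m * e0) with hA | hB
  · have h1 : |‖a‖ - ‖a'‖| * m ≤ (e0 / 4) * m := by linarith
    exact le_of_mul_le_mul_right h1 hm0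
  have hext : t1 ≤ ex := hxy.trans (mul_le_of_le_one_right hx0.le hy1)
  have heyt : t1 ≤ ey := hxy.trans (mul_le_of_le_one_left hy0.le hx1)
  have hex2 : t1 ^ 2 ≤ ex ^ 2 := pow_le_pow_left₀ ht1.le hext 2
  have hey2 : t1 ^ 2 ≤ ey ^ 2 := pow_le_pow_left₀ ht1.le heyt 2
  have lx := low hx0 hx hqx (by linarith)
  have ly := low hy0 hy hqy (by linarith)
  rw [← hp] at lx
  rw [← hq] at ly
  have hx'p : ‖x‖ ≤ p := le_max_left _ _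
  have hx''p : ‖x'‖ ≤ p := le_max_right _ _
  have hy'q : ‖y‖ ≤ q := le_max_left _ _
  have hy''q : ‖y'‖ ≤ q := le_max_right _ _
  have ha''m : ‖a'‖ ≤ m := le_max_right _ _
  have na' := norm_nonneg a'
  have nx := norm_nonneg x
  have ny := norm_nonneg y
  have nx' := norm_nonneg x'
  have ny' := norm_nonneg y'
  -- relative error of the two cheap factors
  have hpt : t1 / 2 ≤ p := by linarith
  have hqt : t1 / 2 ≤ q := by linarith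
  have hdx' : |‖x‖ - ‖x'‖| ≤ 4 * Δ / t1 ^ 2 * p := by
    have h1 : |‖x‖ - ‖x'‖| * p * (t1 ^ 2 / 4) ≤ (4 * Δ / t1 ^ 2 * p) * p * (t1 ^ 2 / 4) := by
      have e1 : (4 * Δ / t1 ^ 2 * p) * p * (t1 ^ 2 / 4) = Δ * p ^ 2 := by field_simp
      rw [e1]
      have e2 : t1 ^ 2 / 4 ≤ p ^ 2 := by
        calc t1 ^ 2 / 4 = (t1 / 2) ^ 2 := by ring
          _ ≤ p ^ 2 := pow_le_pow_left₀ (by positivity) hpt 2
      exact mul_le_mul hdx e2 (by positivity) hΔ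
    have h2 : 0 < p * (t1 ^ 2 / 4) := by positivity
    rw [mul_assoc, mul_assoc (4 * Δ / t1 ^ 2 * p)] at h1
    exact le_of_mul_le_mul_right h1 h2
  have hdy' : |‖y‖ - ‖y'‖| ≤ 4 * Δ / t1 ^ 2 * q := by
    have h1 : |‖y‖ - ‖y'‖| * q * (t1 ^ 2 / 4) ≤ (4 * Δ / t1 ^ 2 * q) * q * (t1 ^ 2 / 4) := by
      have e1 : (4 * Δ / t1 ^ 2 * q) * q * (t1 ^ 2 / 4) = Δ * q ^ 2 := by field_simp
      rw [e1]
      have e2 : t1 ^ 2 / 4 ≤ q ^ 2 := by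
        calc t1 ^ 2 / 4 = (t1 / 2) ^ 2 := by ring
          _ ≤ q ^ 2 := pow_le_pow_left₀ (by positivity) hqt 2
      exact mul_le_mul hdy e2 (by positivity) hΔ
    have h2 : 0 < q * (t1 ^ 2 / 4) := by positivity
    rw [mul_assoc, mul_assoc (4 * Δ / t1 ^ 2 * q)] at h1
    exact le_of_mul_le_mul_right h1 h2
  set R := 4 * Δ / t1 ^ 2 with hR
  have hR0 : 0 ≤ R := by positivity
  have hPP : |‖x'‖ * ‖y'‖ - ‖x‖ * ‖y‖| ≤ 2 * R * (p * q) := by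
    have e : ‖x'‖ * ‖y'‖ - ‖x‖ * ‖y‖ = (‖x'‖ - ‖x‖) * ‖y'‖ + ‖x‖ * (‖y'‖ - ‖y‖) := by ring
    rw [e]
    refine (abs_add_le _ _).trans ?_
    rw [abs_mul, abs_mul, abs_of_nonneg ny', abs_of_nonneg nx, abs_sub_comm ‖x'‖,
      abs_sub_comm ‖y'‖]
    have i1 : |‖x‖ - ‖x'‖| * ‖y'‖ ≤ (R * p) * q := by gcongr
    have i2 : ‖x‖ * |‖y‖ - ‖y'‖| ≤ p * (R * q) := by gcongr
    calc _ ≤ (R * p) * q + p * (R * q) := add_le_add i1 i2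
      _ = _ := by ring
  have hP : p * q / 4 ≤ ‖x‖ * ‖y‖ := by
    calc p * q / 4 = (p / 2) * (q / 2) := by ring
      _ ≤ ‖x‖ * ‖y‖ := mul_le_mul lx.1 ly.1 (by positivity) nx
  have hpq0 : 0 < p * q := by positivity
  have hmain : |‖a‖ - ‖a'‖| * (‖x‖ * ‖y‖) ≤ Δ + m * (2 * R * (p * q)) := by
    have e : (‖a‖ - ‖a'‖) * (‖x‖ * ‖y‖) = (‖a‖ * (‖x‖ * ‖y‖) - ‖a'‖ * (‖x'‖ * ‖y'‖)) +
        ‖a'‖ * (‖x'‖ * ‖y'‖ - ‖x‖ * ‖y‖) := by ring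
    have e2 : |‖a‖ - ‖a'‖| * (‖x‖ * ‖y‖) = |(‖a‖ - ‖a'‖) * (‖x‖ * ‖y‖)| := by
      rw [abs_mul, abs_of_nonneg (by positivity : (0 : ℝ) ≤ ‖x‖ * ‖y‖)]
    rw [e2, e]
    refine (abs_add_le _ _).trans ?_
    rw [abs_mul, abs_of_nonneg na']
    exact add_le_add htr (mul_le_mul ha''m hPP (abs_nonneg _) hm0.le)
  have hmain2 : |‖a‖ - ‖a'‖| * (p * q) ≤ 4 * Δ + 8 * m * R * (p * q) := by
    have h1 : |‖a‖ - ‖a'‖| * (p * q / 4) ≤ |‖a‖ - ‖a'‖| * (‖x‖ * ‖y‖) :=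
      mul_le_mul_of_nonneg_left hP (abs_nonneg _)
    have h2 : |‖a‖ - ‖a'‖| * (p * q) = 4 * (|‖a‖ - ‖a'‖| * (p * q / 4)) := by ring
    rw [h2]
    calc 4 * (|‖a‖ - ‖a'‖| * (p * q / 4)) ≤ 4 * (Δ + m * (2 * R * (p * q))) := by linarith
      _ = _ := by ring
  -- first error
  have hpqt : t1 / 4 ≤ p * q := by
    calc t1 / 4 ≤ (ex * ey) / 4 := by linarith
      _ = (ex / 2) * (ey / 2) := by ring
      _ ≤ p * q := mul_le_mul mx1 my1 (by positivity) hp0.le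
  have f1 : 4 * Δ ≤ (e0 / 10) * (p * q) := by
    have h1 : (e0 / 10) * (t1 / 4) ≤ (e0 / 10) * (p * q) := by gcongr
    have h2 : 40 * (4 * Δ) ≤ e0 * t1 := by linarith
    linarith
  -- second error
  have f2 : 8 * m * R ≤ e0 / 10 := modulus_aux hΔ h0 ht1 hm0 hB.le hK h0t hR
  have hfin : |‖a‖ - ‖a'‖| * (p * q) ≤ (e0 / 4) * (p * q) := by
    have h1 : 8 * m * R * (p * q) ≤ (e0 / 10) * (p * q) := by gcongr
    have h2 : 0 ≤ e0 * (p * q) := by positivity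
    linarith
  exact le_of_mul_le_mul_right hfin hpq0

end Vale.Agent.P321.R3.H101
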