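import Vale.Agent.P321.Defs
import Mathlib

/-! # Monotonicity of the sample complexity in the deletion probability and in the length -/

namespace Vale.Agent.P321.R3.H101

open scoped unitInterval ENNReal

/-- Apply a kernel to every string of a list, independently. -/
noncomputable def mapK (K : List Bool → PMF (List Bool)) : List (List Bool) → PMF (List (List Bool))
  | [] => PMF.pure []
  | t :: ts => (K t).bind fun u => (mapK K ts).map fun us => u :: us

/-- Simulation of one trace gives simulation of a list of traces. -/
theorem tracesLaw_sim {q q' : I} {x y : List Bool} {K : List Bool → PMF (List Bool)}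
    (h : traceLaw q' y = (traceLaw q x).bind K) (m : ℕ) :
    tracesLaw q' y m = (tracesLaw q x m).bind (mapK K) := by
  induction m with
  | zero => simp [tracesLaw, mapK]
  | succ m ih =>
    rw [tracesLaw, tracesLaw, ih, h]
    simp only [PMF.bind_bind, PMF.map_bind, PMF.bind_map, Function.comp_def, mapK]
    congr 1
    ext1 t
    rw [PMF.bind_comm]

/-- **Simulation.** If a trace of `e x` (deletion probability `q'`) can be simulated from a trace
of `x` (deletion probability `q`), then `T q n ≤ T q' n'`. -/
theorem T_le_of_sim {q q' : I} {n n' : ℕ} (K : List Bool → PMF (List Bool))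
    (e : (Fin n → Bool) → (Fin n' → Bool)) (d : (Fin n' → Bool) → (Fin n → Bool))
    (hd : ∀ x, d (e x) = x)
    (hK : ∀ x, traceLaw q' (List.ofFn (e x)) = (traceLaw q (List.ofFn x)).bind K) :
    T q n ≤ T q' n' := by
  unfold T
  refine le_iInf₂ fun m hm => ?_
  obtain ⟨est, hest⟩ := hm
  refine iInf₂_le m ⟨fun ts => ((mapK K ts).bind est).map d, fun x => ?_⟩
  have h1 := hest (e x)
  rw [tracesLaw_sim (hK x) m, PMF.bind_bind] at h1
  have h2 : ((tracesLaw q (List.ofFn x) m).bind fun ts => ((mapK K ts).bind est).map d) =
      ((tracesLaw q (List.ofFn x) m).bind fun ts => (mapK K ts).bind est).map d := by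
    rw [PMF.map_bind]
  rw [h2]
  refine h1.trans ?_
  rw [PMF.map_apply]
  refine le_trans ?_ (ENNReal.le_tsum (e x))
  rw [if_pos (hd x).symm]

theorem coin_true (q : I) : coin q true = ENNReal.ofReal q := by simp [coin]

theorem coin_false (q : I) : coin q false = ENNReal.ofReal (1 - q) := by simp [coin]

theorem coin_comp {q s q' : I} (h : 1 - (q' : ℝ) = (1 - q) * (1 - s)) :
    coin q' = (coin q).bind fun d => (coin s).map fun e => (d || e) := by
  have hq : 0 ≤ 1 - (q : ℝ) := by linarith [q.2.2]
  ext b
  rw [PMF.bind_apply, tsum_fintype, Fintype.sum_bool, PMF.map_apply, PMF.map_apply, tsum_fintype,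
    tsum_fintype, Fintype.sum_bool, Fintype.sum_bool]
  cases b
  · simp only [Bool.true_or, Bool.false_or, coin_true, coin_false]
    simp only [Bool.false_eq_true, if_false, if_true, add_zero, zero_add, mul_zero]
    rw [h, ENNReal.ofReal_mul hq]
  · simp only [Bool.true_or, Bool.false_or, coin_true, coin_false]
    simp only [Bool.true_eq_false, if_false, if_true, add_zero]
    rw [← ENNReal.ofReal_add s.2.1 (by linarith [s.2.2]), ← ENNReal.ofReal_mul q.2.1,
      ← ENNReal.ofReal_mul hq, ← ENNReal.ofReal_add (by nlinarith [q.2.1, s.2.1])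
        (mul_nonneg hq s.2.1)]
    congr 1
    linarith

/-- Thinning a trace. -/
theorem traceLaw_thin {q s q' : I} (h : 1 - (q' : ℝ) = (1 - q) * (1 - s)) (x : List Bool) :
    traceLaw q' x = (traceLaw q x).bind (traceLaw s) := by
  induction x with
  | nil => simp [traceLaw]
  | cons b x ih =>
    have hc : ∀ p : PMF (List Bool), ((coin s).bind fun _ => p) = p := fun p => PMF.bind_const _ _
    rw [traceLaw, traceLaw, coin_comp h]
    simp only [PMF.bind_bind, PMF.bind_map, Function.comp_def]
    congr 1
    ext1 d
    cases d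
    · simp only [Bool.false_or, Bool.false_eq_true, if_false, traceLaw]
      rw [PMF.bind_comm]
      congr 1
      ext1 e
      rw [ih, PMF.map_bind]
    · simp only [Bool.true_or, if_true]
      rw [hc, ih]
      exact PMF.map_id _

/-- `T q n` is nondecreasing in the deletion probability. -/
theorem T_mono_q {q q' : I} (h : (q : ℝ) ≤ q') (n : ℕ) : T q n ≤ T q' n := by
  rcases eq_or_lt_of_le q.2.2 with h1 | h1
  · have e : q = q' := Subtype.ext (le_antisymm h (h1 ▸ q'.2.2))
    rw [e]
  · have h0 : 0 < 1 - (q : ℝ) := by linarith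
    have hs0 : 0 ≤ ((q' : ℝ) - q) / (1 - q) := div_nonneg (by linarith) h0.le
    have hs1 : ((q' : ℝ) - q) / (1 - q) ≤ 1 := by
      rw [div_le_one h0]
      linarith [q'.2.2]
    refine T_le_of_sim (traceLaw ⟨((q' : ℝ) - q) / (1 - q), hs0, hs1⟩) id id (fun _ => rfl)
      fun x => traceLaw_thin ?_ _
    simp only
    field_simp
    ring

/-- `T q n` is nondecreasing in the length. -/
theorem T_mono_succ (q : I) (n : ℕ) : T q n ≤ T q (n + 1) := by
  refine T_le_of_sim (fun t => (coin q).map fun d => if d then t else false :: t)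
    (fun x => Fin.cons false x) Fin.tail (fun x => Fin.tail_cons _ _) fun x => ?_
  rw [List.ofFn_cons, traceLaw]
  simp only [PMF.map, Function.comp_def]
  rw [PMF.bind_comm]

theorem T_mono_n (q : I) {n n' : ℕ} (h : n ≤ n') : T q n ≤ T q n' := by
  induction h with
  | refl => exact le_rfl
  | step _ ih => exact ih.trans (T_mono_succ q _)

end Vale.Agent.P321.R3.H101
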