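import Vale.Agent.P321.R3.H101.Mod7

/-! # No phases, with costs instead of bad cells -/

namespace Vale.Agent.P321.R3.H101

open Complex Finset Vale.Agent.P321.UB

/-- cost of a signed cell -/
def ph0 (φ : ℕ → ℝ) (k : ℤ) : ℝ := φ (if 0 ≤ k then k.toNat else (-k - 1).toNat)

theorem ph0_nonneg {φ : ℕ → ℝ} (hφ : ∀ j, 0 ≤ φ j) (k : ℤ) : 0 ≤ ph0 φ k := hφ _

theorem ph0_neg (φ : ℕ → ℝ) (k : ℤ) : ph0 φ (-k - 1) = ph0 φ k := by
  unfold ph0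
  by_cases h : 0 ≤ k
  · rw [if_neg (by omega), if_pos h]
    congr 1
    omega
  · rw [if_pos (by omega), if_neg h]

theorem ph0_nat (φ : ℕ → ℝ) (a : ℕ) : ph0 φ (a : ℤ) = φ a := by
  unfold ph0
  rw [if_pos (by omega)]
  simp

theorem prod_lower {ma mb mc ea eb ec ρ : ℝ} (ha0 : 0 < ea) (hb0 : 0 < eb) (hc0 : 0 < ec)
    (hρ : 0 < ρ) (ha : ea / 2 ≤ ma) (hb : eb / 2 ≤ mb) (hc : ec / 2 ≤ mc)
    (h : ea / ρ ≤ ma ∨ eb / ρ ≤ mb ∨ ec / ρ ≤ mc) :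
    ea * eb * ec / (4 * ρ) ≤ ma * mb * mc := by
  have hma : 0 < ma := by linarith
  have hmb : 0 < mb := by linarith
  have hmc : 0 < mc := by linarith
  rcases h with h | h | h
  · calc ea * eb * ec / (4 * ρ) = (ea / ρ) * (eb / 2) * (ec / 2) := by field_simp; ring
      _ ≤ ma * mb * mc := by gcongr
  · calc ea * eb * ec / (4 * ρ) = (ea / 2) * (eb / ρ) * (ec / 2) := by field_simp; ring
      _ ≤ ma * mb * mc := by gcongr
  · calc ea * eb * ec / (4 * ρ) = (ea / 2) * (eb / 2) * (ec / ρ) := by field_simp; ring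
      _ ≤ ma * mb * mc := by gcongr

/-- The data of the no-phase lemma. -/
structure Cells (H : ℕ) (W W' : ℤ → ℂ) (φ : ℕ → ℝ) (T Δ : ℝ) : Prop where
  hΔ : 0 ≤ Δ
  hφ : ∀ j, 0 ≤ φ j
  hc : ∀ k, W (-k - 1) = starRingEnd ℂ (W k)
  hc' : ∀ k, W' (-k - 1) = starRingEnd ℂ (W' k)
  h0 : ∀ j : ℕ, j ≤ 2 * H → Real.exp (-(φ j)) ≤ ‖W j - W' j‖
  hsq : ∀ j : ℕ, j ≤ 2 * H → |‖W j‖ ^ 2 - ‖W' j‖ ^ 2| ≤ Δ
  htr : ∀ a b c : ℤ, -(2 * H + 1) ≤ a → a ≤ 2 * H → -(2 * H + 1) ≤ b → b ≤ 2 * H →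
    -(2 * H + 1) ≤ c → c ≤ 2 * H → -5 ≤ a + b + c → a + b + c ≤ 2 →
    ‖W a * W b * W c - W' a * W' b * W' c‖ ≤ Δ
  hsmall : 10 ^ 6 * H * Δ < Real.exp (-T)

section
variable {H : ℕ} {W W' : ℤ → ℂ} {φ : ℕ → ℝ} {T Δ : ℝ}

theorem Cells.z0 (C : Cells H W W' φ T Δ) {k : ℤ} (h1 : -(2 * H + 1) ≤ k) (h2 : k ≤ 2 * H) :
    Real.exp (-(ph0 φ k)) ≤ ‖W k - W' k‖ := by
  by_cases h : 0 ≤ k
  · have := C.h0 k.toNat (by omega)
    have e : ((k.toNat : ℕ) : ℤ) = k := Int.toNat_of_nonneg h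
    rw [e] at this
    unfold ph0
    rw [if_pos h]
    exact this
  · have := C.h0 (-k - 1).toNat (by omega)
    have e : (((-k - 1).toNat : ℕ) : ℤ) = -k - 1 := Int.toNat_of_nonneg (by omega)
    rw [e, C.hc, C.hc', ← map_sub, RCLike.norm_conj] at this
    unfold ph0
    rw [if_neg h]
    exact this

theorem Cells.zsq (C : Cells H W W' φ T Δ) {k : ℤ} (h1 : -(2 * H + 1) ≤ k) (h2 : k ≤ 2 * H) :
    |‖W k‖ ^ 2 - ‖W' k‖ ^ 2| ≤ Δ := by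
  by_cases h : 0 ≤ k
  · have := C.hsq k.toNat (by omega)
    have e : ((k.toNat : ℕ) : ℤ) = k := Int.toNat_of_nonneg h
    rwa [e] at this
  · have := C.hsq (-k - 1).toNat (by omega)
    have e : (((-k - 1).toNat : ℕ) : ℤ) = -k - 1 := Int.toNat_of_nonneg (by omega)
    rwa [e, C.hc, C.hc', RCLike.norm_conj, RCLike.norm_conj] at this

/-- phase of a signed cell -/
noncomputable def UU (W W' : ℤ → ℂ) (k : ℤ) : ℂ := uu (W k) (W' k)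

theorem Cells.UU_neg (C : Cells H W W' φ T Δ) (k : ℤ) :
    UU W W' (-k - 1) = starRingEnd ℂ (UU W W' k) := by
  unfold UU
  rw [C.hc, C.hc', uu_conj]

theorem Cells.mx_neg (C : Cells H W W' φ T Δ) (k : ℤ) :
    mx (W (-k - 1)) (W' (-k - 1)) = mx (W k) (W' k) := by
  unfold mx
  rw [C.hc, C.hc', RCLike.norm_conj, RCLike.norm_conj]

/-- one triple relation of total cost at most `T` -/
theorem Cells.rel (C : Cells H W W' φ T Δ) (hH : 1 ≤ H) {ρ : ℝ} (hρ : 0 < ρ) {a b c : ℤ}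
    (a1 : -(2 * H + 1) ≤ a) (a2 : a ≤ 2 * H) (b1 : -(2 * H + 1) ≤ b) (b2 : b ≤ 2 * H)
    (c1 : -(2 * H + 1) ≤ c) (c2 : c ≤ 2 * H) (s1 : -5 ≤ a + b + c) (s2 : a + b + c ≤ 2)
    (hT : ph0 φ a + ph0 φ b + ph0 φ c ≤ T)
    (hG : Real.exp (-(ph0 φ a)) ≤ ρ * mx (W a) (W' a) ∨
      Real.exp (-(ph0 φ b)) ≤ ρ * mx (W b) (W' b) ∨
      Real.exp (-(ph0 φ c)) ≤ ρ * mx (W c) (W' c)) :
    ‖UU W W' a‖ = 1 ∧ ‖UU W W' b‖ = 1 ∧ ‖UU W W' c‖ = 1 ∧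
      ‖UU W W' a * UU W W' b * UU W W' c - 1‖ ≤ 64 * Δ * Real.exp T * ρ := by
  have hHR : (1 : ℝ) ≤ H := by exact_mod_cast hH
  have hsm : 10 ^ 6 * Δ < Real.exp (-T) := by
    have h1 := C.hsmall
    have h2 : 10 ^ 6 * Δ ≤ 10 ^ 6 * H * Δ := by
      have := mul_le_mul_of_nonneg_right hHR C.hΔ
      nlinarith
    linarith
  have e1 : ∀ k, Real.exp (-(ph0 φ k)) ≤ 1 := fun k =>
    Real.exp_le_one_iff.2 (by linarith [ph0_nonneg C.hφ k])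
  have hprod : Real.exp (-T) ≤ Real.exp (-(ph0 φ a)) * Real.exp (-(ph0 φ b)) *
      Real.exp (-(ph0 φ c)) := by
    rw [← Real.exp_add, ← Real.exp_add]
    apply Real.exp_le_exp.2
    linarith
  have hET0 := Real.exp_pos (-T)
  obtain ⟨na, nb, nc, hrel⟩ := rel_phase C.hΔ (Real.exp_pos _) (Real.exp_pos _) (Real.exp_pos _)
    (e1 a) (e1 b) (e1 c) (C.z0 a1 a2) (C.z0 b1 b2) (C.z0 c1 c2) (C.zsq a1 a2) (C.zsq b1 b2)
    (C.zsq c1 c2) (by have := C.hΔ; linarith) (C.htr a b c a1 a2 b1 b2 c1 c2 s1 s2)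
  refine ⟨uu_norm na.1 na.2, uu_norm nb.1 nb.2, uu_norm nc.1 nc.2, hrel.trans ?_⟩
  have hlow := prod_lower (Real.exp_pos (-(ph0 φ a))) (Real.exp_pos (-(ph0 φ b)))
    (Real.exp_pos (-(ph0 φ c))) hρ (mx_ge (C.z0 a1 a2)) (mx_ge (C.z0 b1 b2)) (mx_ge (C.z0 c1 c2))
    (by
      rcases hG with h | h | h
      · left; rw [div_le_iff₀ hρ]; linarith
      · right; left; rw [div_le_iff₀ hρ]; linarith
      · right; right; rw [div_le_iff₀ hρ]; linarith)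
  have hM : Real.exp (-T) / (4 * ρ) ≤ mx (W a) (W' a) * mx (W b) (W' b) * mx (W c) (W' c) := by
    refine le_trans ?_ hlow
    gcongr
  have hM0 : 0 < Real.exp (-T) / (4 * ρ) := by positivity
  rw [div_le_iff₀ (lt_of_lt_of_le hM0 hM)]
  have hee : Real.exp T * Real.exp (-T) = 1 := by rw [← Real.exp_add]; simp
  calc 16 * Δ = 64 * Δ * Real.exp T * ρ * (Real.exp (-T) / (4 * ρ)) := by
        have : 64 * Δ * Real.exp T * ρ * (Real.exp (-T) / (4 * ρ)) =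
          16 * Δ * (Real.exp T * Real.exp (-T)) := by field_simp; ring
        rw [this, hee, mul_one]
    _ ≤ _ := by
        have := C.hΔ
        have h3 := (Real.exp_pos T).le
        exact mul_le_mul_of_nonneg_left hM (by positivity)

theorem Cells.unit_of_low (C : Cells H W W' φ T Δ) (hH : 1 ≤ H) {k : ℤ} (k1 : -(2 * H + 1) ≤ k)
    (k2 : k ≤ 2 * H) (hk : 2 * ph0 φ k ≤ T) : ‖UU W W' k‖ = 1 := by
  have hHR : (1 : ℝ) ≤ H := by exact_mod_cast hH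
  have hsm : 10 ^ 6 * Δ < Real.exp (-T) := by
    have h1 := C.hsmall
    have h2 : 10 ^ 6 * Δ ≤ 10 ^ 6 * H * Δ := by
      have := mul_le_mul_of_nonneg_right hHR C.hΔ
      nlinarith
    linarith
  have h2 : Real.exp (-T) ≤ Real.exp (-(ph0 φ k)) ^ 2 := by
    rw [← Real.exp_nat_mul]
    apply Real.exp_le_exp.2
    push_cast
    linarith
  have hl := low (Real.exp_pos _) (C.z0 k1 k2) (C.zsq k1 k2) (by have := C.hΔ; linarith)
  have hm := mx_ge (C.z0 k1 k2)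
  have h3 := Real.exp_pos (-(ph0 φ k))
  exact uu_norm (norm_pos_iff.1 (by linarith [hl.1])) (norm_pos_iff.1 (by linarith [hl.2]))

end

end Vale.Agent.P321.R3.H101
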