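import Vale.Agent.P321.R2.H613.Step6

/-! # From the product relations to the cells (nonnegative cells, pairs at distance `≤ 100`) -/

namespace Vale.Agent.P321.R3.H101

open Complex Finset Vale.Agent.P321.UB Vale.Agent.P321.R2.H613

section
variable {n i1 : ℕ} {f f' : ℕ → ℂ} {κ B ω Δ θ : ℝ}

/-- pair relation -/
theorem pair5 (hi : i1 ≤ n) (hB0 : 0 ≤ B) {R : ℝ}
    (hreal : ∀ i, (starRingEnd ℂ) (f i) = f i) (hreal' : ∀ i, (starRingEnd ℂ) (f' i) = f' i)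
    (htr : ∀ g g' : Fin 3 → ℕ → ℂ, (∀ m, Simple6 f f' (g m) (g' m)) → ∀ ζ : Fin 3 → ℝ,
      (∀ m, |ζ m| ≤ B) → |ζ 0 + ζ 1 + ζ 2| ≤ R →
      ‖VV n i1 θ ω (g 0) (ζ 0) * VV n i1 θ ω (g 1) (ζ 1) * VV n i1 θ ω (g 2) (ζ 2) -
        VV n i1 θ ω (g' 0) (ζ 0) * VV n i1 θ ω (g' 1) (ζ 1) * VV n i1 θ ω (g' 2) (ζ 2)‖ ≤ Δ)
    (ζ ζ' : ℝ) (h1 : |ζ| ≤ B) (h2 : |ζ'| ≤ B) (h3 : |ζ - ζ'| ≤ R) :
    ‖VV n i1 θ ω f ζ * (starRingEnd ℂ) (VV n i1 θ ω f ζ') -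
        VV n i1 θ ω f' ζ * (starRingEnd ℂ) (VV n i1 θ ω f' ζ')‖ ≤ Δ := by
  have := htr ![f, f, fun _ => 1] ![f', f', fun _ => 1] (by
      intro m
      fin_cases m
      · exact Or.inl ⟨rfl, rfl⟩
      · exact Or.inl ⟨rfl, rfl⟩
      · exact Or.inr ⟨rfl, rfl⟩) ![ζ, -ζ', 0] (by
      intro m
      fin_cases m
      · simpa using h1
      · simpa using h2
      · simpa using hB0) (by simpa [sub_eq_add_neg] using h3)
  simp only [Matrix.cons_val_zero, Matrix.cons_val_one, Matrix.cons_val] at this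
  rw [VV_real_neg hreal, VV_real_neg hreal', ← sub_mul, norm_mul] at this
  have h4 := one_le_norm_VV_one hi θ ω
  refine le_trans ?_ this
  exact le_mul_of_one_le_right (norm_nonneg _) h4

/-- triple relation -/
theorem triple5' {R : ℝ}
    (hreal : ∀ i, (starRingEnd ℂ) (f i) = f i) (hreal' : ∀ i, (starRingEnd ℂ) (f' i) = f' i)
    (htr : ∀ g g' : Fin 3 → ℕ → ℂ, (∀ m, Simple6 f f' (g m) (g' m)) → ∀ ζ : Fin 3 → ℝ,
      (∀ m, |ζ m| ≤ B) → |ζ 0 + ζ 1 + ζ 2| ≤ R →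
      ‖VV n i1 θ ω (g 0) (ζ 0) * VV n i1 θ ω (g 1) (ζ 1) * VV n i1 θ ω (g 2) (ζ 2) -
        VV n i1 θ ω (g' 0) (ζ 0) * VV n i1 θ ω (g' 1) (ζ 1) * VV n i1 θ ω (g' 2) (ζ 2)‖ ≤ Δ)
    (ζ ζ' ζ'' : ℝ) (h1 : |ζ| ≤ B) (h2 : |ζ'| ≤ B) (h2' : |ζ''| ≤ B)
    (h3 : |ζ + ζ' - ζ''| ≤ R) :
    ‖VV n i1 θ ω f ζ * VV n i1 θ ω f ζ' * (starRingEnd ℂ) (VV n i1 θ ω f ζ'') -
        VV n i1 θ ω f' ζ * VV n i1 θ ω f' ζ' * (starRingEnd ℂ) (VV n i1 θ ω f' ζ'')‖ ≤ Δ := by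
  have := htr ![f, f, f] ![f', f', f'] (by
      intro m
      fin_cases m
      · exact Or.inl ⟨rfl, rfl⟩
      · exact Or.inl ⟨rfl, rfl⟩
      · exact Or.inl ⟨rfl, rfl⟩) ![ζ, ζ', -ζ''] (by
      intro m
      fin_cases m
      · simpa using h1
      · simpa using h2
      · simpa using h2') (by
      simpa [sub_eq_add_neg] using h3)
  simp only [Matrix.cons_val_zero, Matrix.cons_val_one, Matrix.cons_val] at this
  rwa [VV_real_neg hreal, VV_real_neg hreal'] at this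

/-- All relations needed by the no-phase lemma on `L` cells. -/
theorem relations5 (hi : i1 ≤ n)
    (hreal : ∀ i, (starRingEnd ℂ) (f i) = f i) (hreal' : ∀ i, (starRingEnd ℂ) (f' i) = f' i)
    (heq : ∀ i < i1, f i = f' i)
    (htr : ∀ g g' : Fin 3 → ℕ → ℂ, (∀ m, Simple6 f f' (g m) (g' m)) → ∀ ζ : Fin 3 → ℝ,
      (∀ m, |ζ m| ≤ B) → |ζ 0 + ζ 1 + ζ 2| ≤ 110 * κ →
      ‖VV n i1 θ ω (g 0) (ζ 0) * VV n i1 θ ω (g 1) (ζ 1) * VV n i1 θ ω (g 2) (ζ 2) -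
        VV n i1 θ ω (g' 0) (ζ 0) * VV n i1 θ ω (g' 1) (ζ 1) * VV n i1 θ ω (g' 2) (ζ 2)‖ ≤ Δ)
    (hκ : 0 < κ) {L : ℕ} (hLB : (L : ℝ) * κ ≤ B) {ξ φ : ℕ → ℝ}
    (hξ : ∀ j < L, j * κ ≤ ξ j ∧ ξ j ≤ (j + 1) * κ ∧
      Real.exp (-(φ j)) ≤ ‖expSum (n + 1 - i1)
        (fun k => dif i1 f f' k * cexp (-(k : ℂ) ^ 2 / (2 * θ ^ 2))) ((ω : ℂ) - ξ j * I)‖) :
    (∀ j < L, Real.exp (-(φ j)) ≤ ‖VV n i1 θ ω f (ξ j) - VV n i1 θ ω f' (ξ j)‖) ∧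
    (∀ j < L, |‖VV n i1 θ ω f (ξ j)‖ ^ 2 - ‖VV n i1 θ ω f' (ξ j)‖ ^ 2| ≤ Δ) ∧
    (∀ a k, k ≤ 100 → a + k < L →
      ‖VV n i1 θ ω f (ξ (a + k)) * (starRingEnd ℂ) (VV n i1 θ ω f (ξ a)) -
        VV n i1 θ ω f' (ξ (a + k)) * (starRingEnd ℂ) (VV n i1 θ ω f' (ξ a))‖ ≤ Δ) ∧
    (∀ a b, a + b < L →
      ‖VV n i1 θ ω f (ξ a) * VV n i1 θ ω f (ξ b) *
          (starRingEnd ℂ) (VV n i1 θ ω f (ξ (a + b))) -
        VV n i1 θ ω f' (ξ a) * VV n i1 θ ω f' (ξ b) *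
          (starRingEnd ℂ) (VV n i1 θ ω f' (ξ (a + b)))‖ ≤ Δ) := by
  have habs : ∀ j < L, |ξ j| ≤ B := by
    intro j hj
    obtain ⟨h1, h2, -⟩ := hξ j hj
    have h3 : (j : ℝ) + 1 ≤ L := by exact_mod_cast hj
    have h4 : (0 : ℝ) ≤ j * κ := by positivity
    have h5 : ((j : ℝ) + 1) * κ ≤ L * κ := by gcongr
    rw [abs_le]
    constructor <;> linarith
  refine ⟨fun j hj => ?_, fun j hj => ?_, fun a k hk hak => ?_, fun a b hab => ?_⟩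
  · rw [VV_sub hi heq]
    exact (hξ j hj).2.2
  · have hB0 : 0 ≤ B := (abs_nonneg _).trans (habs j hj)
    have h5 := pair5 hi hB0 hreal hreal' htr (ξ j) (ξ j) (habs j hj) (habs j hj) (by
      rw [sub_self, abs_zero]; positivity)
    rwa [Complex.mul_conj, Complex.mul_conj, ← Complex.ofReal_sub, Complex.norm_real,
      Complex.normSq_eq_norm_sq, Complex.normSq_eq_norm_sq, Real.norm_eq_abs] at h5
  · have hB0 : 0 ≤ B := (abs_nonneg _).trans (habs _ hak)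
    refine pair5 hi hB0 hreal hreal' htr _ _ (habs _ hak) (habs a (by omega)) ?_
    obtain ⟨a1, a2, -⟩ := hξ _ hak
    obtain ⟨a3, a4, -⟩ := hξ a (by omega)
    push_cast at a1 a2
    have h6 : (k : ℝ) ≤ 100 := by exact_mod_cast hk
    have h7 : (k : ℝ) * κ ≤ 100 * κ := mul_le_mul_of_nonneg_right h6 hκ.le
    have h8 : (0 : ℝ) ≤ k * κ := by positivity
    rw [abs_le]
    constructor <;> linarith
  · refine triple5' hreal hreal' htr _ _ _ (habs a (by omega)) (habs b (by omega))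
      (habs _ hab) ?_
    obtain ⟨b1, b2, -⟩ := hξ _ hab
    obtain ⟨b3, b4, -⟩ := hξ a (by omega)
    obtain ⟨b5, b6, -⟩ := hξ b (by omega)
    push_cast at b1 b2
    rw [abs_le]
    constructor <;> linarith

end

end Vale.Agent.P321.R3.H101
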