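import Vale.Agent.P321.R3.H101.Main7
import Vale.Agent.P321.R2.H613.Step6

/-! # From the product relations to the cells -/

namespace Vale.Agent.P321.R3.H101

open Complex Finset Vale.Agent.P321.UB Vale.Agent.P321.R2.H613

/-- the frequency of a signed cell -/
def fr (ξ : ℕ → ℝ) (k : ℤ) : ℝ := if 0 ≤ k then ξ k.toNat else -ξ (-k - 1).toNat

theorem fr_neg (ξ : ℕ → ℝ) (k : ℤ) : fr ξ (-k - 1) = -fr ξ k := by
  unfold fr
  by_cases h : 0 ≤ k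
  · rw [if_neg (by omega), if_pos h]
    congr 2
    omega
  · rw [if_pos (by omega), if_neg h, neg_neg]

theorem fr_nat (ξ : ℕ → ℝ) (j : ℕ) : fr ξ (j : ℤ) = ξ j := by
  unfold fr
  rw [if_pos (by omega)]
  simp

theorem fr_bounds {H : ℕ} {κ : ℝ} {ξ : ℕ → ℝ}
    (hξ : ∀ j ≤ 2 * H, j * κ ≤ ξ j ∧ ξ j ≤ (j + 1) * κ) {k : ℤ}
    (k1 : -(2 * H + 1) ≤ k) (k2 : k ≤ 2 * H) :
    (k : ℝ) * κ ≤ fr ξ k ∧ fr ξ k ≤ ((k : ℝ) + 1) * κ := by
  unfold fr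
  by_cases h : 0 ≤ k
  · rw [if_pos h]
    obtain ⟨h1, h2⟩ := hξ k.toNat (by omega)
    have e : ((k.toNat : ℕ) : ℝ) = (k : ℝ) := by
      have : ((k.toNat : ℕ) : ℤ) = k := Int.toNat_of_nonneg h
      exact_mod_cast congrArg (fun z : ℤ => (z : ℝ)) this
    rw [e] at h1 h2
    exact ⟨h1, h2⟩
  · rw [if_neg h]
    obtain ⟨h1, h2⟩ := hξ (-k - 1).toNat (by omega)
    have e : (((-k - 1).toNat : ℕ) : ℝ) = -(k : ℝ) - 1 := by
      have : (((-k - 1).toNat : ℕ) : ℤ) = -k - 1 := Int.toNat_of_nonneg (by omega)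
      have h3 := congrArg (fun z : ℤ => (z : ℝ)) this
      push_cast at h3
      exact_mod_cast h3
    rw [e] at h1 h2
    constructor <;> linarith

theorem cells_of {n i1 : ℕ} (hi : i1 ≤ n) {f f' : ℕ → ℂ} {κ B ω Δ θ T : ℝ} {H : ℕ}
    (hreal : ∀ i, (starRingEnd ℂ) (f i) = f i) (hreal' : ∀ i, (starRingEnd ℂ) (f' i) = f' i)
    (heq : ∀ i < i1, f i = f' i)
    (htr : ∀ g g' : Fin 3 → ℕ → ℂ, (∀ m, Simple6 f f' (g m) (g' m)) → ∀ ζ : Fin 3 → ℝ,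
      (∀ m, |ζ m| ≤ B) → |ζ 0 + ζ 1 + ζ 2| ≤ 6 * κ →
      ‖VV n i1 θ ω (g 0) (ζ 0) * VV n i1 θ ω (g 1) (ζ 1) * VV n i1 θ ω (g 2) (ζ 2) -
        VV n i1 θ ω (g' 0) (ζ 0) * VV n i1 θ ω (g' 1) (ζ 1) * VV n i1 θ ω (g' 2) (ζ 2)‖ ≤ Δ)
    (hκ : 0 < κ) (hB : ((2 * H + 1 : ℕ) : ℝ) * κ ≤ B) {ξ φ : ℕ → ℝ} (hφ : ∀ j, 0 ≤ φ j)
    (hξ : ∀ j ≤ 2 * H, j * κ ≤ ξ j ∧ ξ j ≤ (j + 1) * κ ∧
      Real.exp (-(φ j)) ≤ ‖expSum (n + 1 - i1)
        (fun k => dif i1 f f' k * cexp (-(k : ℂ) ^ 2 / (2 * θ ^ 2))) ((ω : ℂ) - ξ j * I)‖)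
    (hΔ : 0 ≤ Δ) (hsmall : 10 ^ 6 * H * Δ < Real.exp (-T)) :
    Cells H (fun k => VV n i1 θ ω f (fr ξ k)) (fun k => VV n i1 θ ω f' (fr ξ k)) φ T Δ := by
  have hb : ∀ k : ℤ, -(2 * H + 1) ≤ k → k ≤ 2 * H →
      (k : ℝ) * κ ≤ fr ξ k ∧ fr ξ k ≤ ((k : ℝ) + 1) * κ := fun k k1 k2 =>
    fr_bounds (fun j hj => ⟨(hξ j hj).1, (hξ j hj).2.1⟩) k1 k2
  have habs : ∀ k : ℤ, -(2 * H + 1) ≤ k → k ≤ 2 * H → |fr ξ k| ≤ B := by
    intro k k1 k2
    obtain ⟨h1, h2⟩ := hb k k1 k2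
    have e1 : -(2 * (H : ℝ) + 1) ≤ k := by exact_mod_cast k1
    have e2 : (k : ℝ) ≤ 2 * H := by exact_mod_cast k2
    push_cast at hB
    have h3 : -(2 * (H : ℝ) + 1) * κ ≤ k * κ := mul_le_mul_of_nonneg_right e1 hκ.le
    have h4 : ((k : ℝ) + 1) * κ ≤ (2 * H + 1) * κ :=
      mul_le_mul_of_nonneg_right (by linarith) hκ.le
    rw [abs_le]
    constructor <;> linarith
  refine ⟨hΔ, hφ, fun k => ?_, fun k => ?_, fun j hj => ?_, fun j hj => ?_, ?_, hsmall⟩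
  · simp only [fr_neg]
    exact VV_real_neg hreal _
  · simp only [fr_neg]
    exact VV_real_neg hreal' _
  · simp only [fr_nat]
    rw [VV_sub hi heq]
    exact (hξ j hj).2.2
  · simp only [fr_nat]
    have hj' : |ξ j| ≤ B := by
      have := habs j (by omega) (by omega)
      rwa [fr_nat] at this
    have hB0 : 0 ≤ B := (abs_nonneg _).trans hj'
    have := htr ![f, f, fun _ => 1] ![f', f', fun _ => 1] (by
      intro m
      fin_cases m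
      · exact Or.inl ⟨rfl, rfl⟩
      · exact Or.inl ⟨rfl, rfl⟩
      · exact Or.inr ⟨rfl, rfl⟩) ![ξ j, -ξ j, 0] (by
      intro m
      fin_cases m
      · simpa using hj'
      · simpa using hj'
      · simpa using hB0) (by simp [hκ.le])
    simp only [Matrix.cons_val_zero, Matrix.cons_val_one, Matrix.cons_val] at this
    rw [VV_real_neg hreal, VV_real_neg hreal', ← sub_mul, norm_mul] at this
    have h4 := one_le_norm_VV_one hi θ ω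
    have h5 : ‖VV n i1 θ ω f (ξ j) * (starRingEnd ℂ) (VV n i1 θ ω f (ξ j)) -
        VV n i1 θ ω f' (ξ j) * (starRingEnd ℂ) (VV n i1 θ ω f' (ξ j))‖ ≤ Δ :=
      le_trans (le_mul_of_one_le_right (norm_nonneg _) h4) this
    rwa [Complex.mul_conj, Complex.mul_conj, ← Complex.ofReal_sub, Complex.norm_real,
      Complex.normSq_eq_norm_sq, Complex.normSq_eq_norm_sq, Real.norm_eq_abs] at h5
  · intro a b c a1 a2 b1 b2 c1 c2 s1 s2
    have := htr ![f, f, f] ![f', f', f'] (by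
      intro m
      fin_cases m
      · exact Or.inl ⟨rfl, rfl⟩
      · exact Or.inl ⟨rfl, rfl⟩
      · exact Or.inl ⟨rfl, rfl⟩) ![fr ξ a, fr ξ b, fr ξ c] (by
      intro m
      fin_cases m
      · simpa using habs a a1 a2
      · simpa using habs b b1 b2
      · simpa using habs c c1 c2) (by
      simp only [Matrix.cons_val_zero, Matrix.cons_val_one, Matrix.cons_val]
      obtain ⟨p1, p2⟩ := hb a a1 a2
      obtain ⟨q1, q2⟩ := hb b b1 b2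
      obtain ⟨r1, r2⟩ := hb c c1 c2
      have t1 : (-5 : ℝ) ≤ (a : ℝ) + b + c := by exact_mod_cast s1
      have t2 : (a : ℝ) + b + c ≤ 2 := by exact_mod_cast s2
      have t3 : (-5 : ℝ) * κ ≤ ((a : ℝ) + b + c) * κ := mul_le_mul_of_nonneg_right t1 hκ.le
      have t4 : ((a : ℝ) + b + c) * κ ≤ 2 * κ := mul_le_mul_of_nonneg_right t2 hκ.le
      rw [abs_le]
      constructor <;> linarith)
    simpa only [Matrix.cons_val_zero, Matrix.cons_val_one, Matrix.cons_val] using this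

end Vale.Agent.P321.R3.H101
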