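import Vale.Agent.P321.UB.Chain

/-! # Phase relations from a triple product, one factor possibly tiny -/

namespace Vale.Agent.P321.R3.H101

open Complex Finset Vale.Agent.P321.UB

/-- phase -/
noncomputable def ph (z : ℂ) : ℂ := z / ‖z‖

/-- phase difference -/
noncomputable def uu (z z' : ℂ) : ℂ := ph z' * starRingEnd ℂ (ph z)

theorem ph_norm {z : ℂ} (hz : z ≠ 0) : ‖ph z‖ = 1 := by
  unfold ph
  rw [norm_div, Complex.norm_real, norm_norm, div_self (norm_ne_zero_iff.2 hz)]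

theorem ph_mul (z w : ℂ) : ph (z * w) = ph z * ph w := by
  unfold ph
  simp only [norm_mul, Complex.ofReal_mul]
  rw [mul_div_mul_comm]

theorem ph_conj (z : ℂ) : ph (starRingEnd ℂ z) = starRingEnd ℂ (ph z) := by
  simp only [ph, map_div₀, Complex.conj_ofReal, RCLike.norm_conj]

theorem unit_conj {z : ℂ} (hz : ‖z‖ = 1) : z * starRingEnd ℂ z = 1 := by
  rw [Complex.mul_conj, Complex.normSq_eq_norm_sq, hz]
  simp

theorem uu_norm {z z' : ℂ} (hz : z ≠ 0) (hz' : z' ≠ 0) : ‖uu z z'‖ = 1 := by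
  unfold uu
  rw [norm_mul, RCLike.norm_conj, ph_norm hz, ph_norm hz', mul_one]

theorem uu_conj (z z' : ℂ) :
    uu (starRingEnd ℂ z) (starRingEnd ℂ z') = starRingEnd ℂ (uu z z') := by
  unfold uu
  rw [ph_conj, ph_conj, map_mul]

/-- the larger of the two amplitudes -/
noncomputable def mx (z z' : ℂ) : ℝ := max ‖z‖ ‖z'‖

theorem mx_ge {z z' : ℂ} {e : ℝ} (h : e ≤ ‖z - z'‖) : e / 2 ≤ mx z z' := by
  have h1 := norm_sub_le z z'
  have h2 : ‖z‖ ≤ mx z z' := le_max_left _ _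
  have h3 : ‖z'‖ ≤ mx z z' := le_max_right _ _
  linarith

/-- cheap factors have comparable amplitudes -/
theorem low {z z' : ℂ} {e Δ : ℝ} (he : 0 < e) (h : e ≤ ‖z - z'‖)
    (hq : |‖z‖ ^ 2 - ‖z'‖ ^ 2| ≤ Δ) (hl : 16 * Δ ≤ e ^ 2) :
    mx z z' / 2 ≤ ‖z‖ ∧ mx z z' / 2 ≤ ‖z'‖ := by
  have h1 := mx_ge h
  have h2 := abs_le.1 hq
  have n1 := norm_nonneg z
  have n2 := norm_nonneg z'
  unfold mx at *
  rcases le_total ‖z‖ ‖z'‖ with h3 | h3
  · rw [max_eq_right h3] at h1 ⊢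
    refine ⟨?_, by linarith⟩
    by_contra hc
    push Not at hc
    nlinarith
  · rw [max_eq_left h3] at h1 ⊢
    refine ⟨by linarith, ?_⟩
    by_contra hc
    push Not at hc
    nlinarith

/-- one of the two products is large -/
theorem big_side {a b c a' b' c' : ℂ} {ea eb ec Δ : ℝ} (hΔ : 0 ≤ Δ)
    (ha0 : 0 < ea) (hb0 : 0 < eb) (hc0 : 0 < ec) (ha1 : ea ≤ 1) (hb1 : eb ≤ 1) (hc1 : ec ≤ 1)
    (ha : ea ≤ ‖a - a'‖) (hb : eb ≤ ‖b - b'‖) (hc : ec ≤ ‖c - c'‖)
    (hqa : |‖a‖ ^ 2 - ‖a'‖ ^ 2| ≤ Δ) (hqb : |‖b‖ ^ 2 - ‖b'‖ ^ 2| ≤ Δ)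
    (hqc : |‖c‖ ^ 2 - ‖c'‖ ^ 2| ≤ Δ) (hK : 1000 * Δ < ea * eb * ec) :
    mx a a' * mx b b' * mx c c' / 8 ≤ ‖a * b * c‖ ∨
      mx a a' * mx b b' * mx c c' / 8 ≤ ‖a' * b' * c'‖ := by
  have key : ∀ (x y z x' y' z' : ℂ), 0 ≤ mx x x' → 0 ≤ mx y y' → 0 ≤ mx z z' →
      (mx x x' / 2 ≤ ‖x‖ ∧ mx x x' / 2 ≤ ‖x'‖) → (mx y y' / 2 ≤ ‖y‖ ∧ mx y y' / 2 ≤ ‖y'‖) →
      mx x x' * mx y y' * mx z z' / 8 ≤ ‖x * y * z‖ ∨
      mx x x' * mx y y' * mx z z' / 8 ≤ ‖x' * y' * z'‖ := by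
    intro x y z x' y' z' n1 n2 n3 h1 h2
    have h3 : mx z z' = ‖z‖ ∨ mx z z' = ‖z'‖ := max_choice _ _
    have e : mx x x' * mx y y' * mx z z' / 8 ≤ (mx x x' / 2) * (mx y y' / 2) * mx z z' := by
      have : 0 ≤ mx x x' * mx y y' * mx z z' := by positivity
      linarith
    rcases h3 with h3 | h3
    · left
      refine e.trans ?_
      rw [norm_mul, norm_mul, h3]
      gcongr
      · exact h1.1
      · exact h2.1
    · right
      refine e.trans ?_
      rw [norm_mul, norm_mul, h3]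
      gcongr
      · exact h1.2
      · exact h2.2
  have na : 0 ≤ mx a a' := le_max_of_le_left (norm_nonneg _)
  have nb : 0 ≤ mx b b' := le_max_of_le_left (norm_nonneg _)
  have nc : 0 ≤ mx c c' := le_max_of_le_left (norm_nonneg _)
  have hab : ea * eb * ec ≤ ea * eb := mul_le_of_le_one_right (by positivity) hc1
  have hac : ea * eb * ec ≤ ea * ec := by
    have : ea * eb * ec = (ea * ec) * eb := by ring
    rw [this]
    exact mul_le_of_le_one_right (by positivity) hb1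
  have hbc : ea * eb * ec ≤ eb * ec := by
    have : ea * eb * ec = (eb * ec) * ea := by ring
    rw [this]
    exact mul_le_of_le_one_right (by positivity) ha1
  rcases le_or_gt (16 * Δ) (ea ^ 2) with h1 | h1
  · rcases le_or_gt (16 * Δ) (eb ^ 2) with h2 | h2
    · exact key a b c a' b' c' na nb nc (low ha0 ha hqa h1) (low hb0 hb hqb h2)
    · have h3 : 16 * Δ ≤ ec ^ 2 := by
        by_contra h3
        push Not at h3
        have : (eb * ec) ^ 2 < (16 * Δ) ^ 2 := by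
          have h4 : (eb * ec) ^ 2 = eb ^ 2 * ec ^ 2 := by ring
          rw [h4, sq (16 * Δ)]
          exact mul_lt_mul'' h2 h3 (by positivity) (by positivity)
        have h5 := lt_of_pow_lt_pow_left₀ 2 (by positivity) this
        linarith
      have := key a c b a' c' b' na nc nb (low ha0 ha hqa h1) (low hc0 hc hqc h3)
      have e1 : mx a a' * mx c c' * mx b b' = mx a a' * mx b b' * mx c c' := by ring
      have e2 : a * c * b = a * b * c := by ring
      have e3 : a' * c' * b' = a' * b' * c' := by ring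
      rwa [e1, e2, e3] at this
  · have h2 : 16 * Δ ≤ eb ^ 2 := by
      by_contra h3
      push Not at h3
      have : (ea * eb) ^ 2 < (16 * Δ) ^ 2 := by
        have h4 : (ea * eb) ^ 2 = ea ^ 2 * eb ^ 2 := by ring
        rw [h4, sq (16 * Δ)]
        exact mul_lt_mul'' h1 h3 (by positivity) (by positivity)
      have h5 := lt_of_pow_lt_pow_left₀ 2 (by positivity) this
      linarith
    have h3 : 16 * Δ ≤ ec ^ 2 := by
      by_contra h3
      push Not at h3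
      have : (ea * ec) ^ 2 < (16 * Δ) ^ 2 := by
        have h4 : (ea * ec) ^ 2 = ea ^ 2 * ec ^ 2 := by ring
        rw [h4, sq (16 * Δ)]
        exact mul_lt_mul'' h1 h3 (by positivity) (by positivity)
      have h5 := lt_of_pow_lt_pow_left₀ 2 (by positivity) this
      linarith
    have := key b c a b' c' a' nb nc na (low hb0 hb hqb h2) (low hc0 hc hqc h3)
    have e1 : mx b b' * mx c c' * mx a a' = mx a a' * mx b b' * mx c c' := by ring
    have e2 : b * c * a = a * b * c := by ring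
    have e3 : b' * c' * a' = a' * b' * c' := by ring
    rwa [e1, e2, e3] at this

/-- The phase relation. -/
theorem rel_phase {a b c a' b' c' : ℂ} {ea eb ec Δ : ℝ} (hΔ : 0 ≤ Δ)
    (ha0 : 0 < ea) (hb0 : 0 < eb) (hc0 : 0 < ec) (ha1 : ea ≤ 1) (hb1 : eb ≤ 1) (hc1 : ec ≤ 1)
    (ha : ea ≤ ‖a - a'‖) (hb : eb ≤ ‖b - b'‖) (hc : ec ≤ ‖c - c'‖)
    (hqa : |‖a‖ ^ 2 - ‖a'‖ ^ 2| ≤ Δ) (hqb : |‖b‖ ^ 2 - ‖b'‖ ^ 2| ≤ Δ)
    (hqc : |‖c‖ ^ 2 - ‖c'‖ ^ 2| ≤ Δ) (hK : 1000 * Δ < ea * eb * ec)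
    (htr : ‖a * b * c - a' * b' * c'‖ ≤ Δ) :
    (a ≠ 0 ∧ a' ≠ 0) ∧ (b ≠ 0 ∧ b' ≠ 0) ∧ (c ≠ 0 ∧ c' ≠ 0) ∧
      ‖uu a a' * uu b b' * uu c c' - 1‖ ≤ 16 * Δ / (mx a a' * mx b b' * mx c c') := by
  have ma := mx_ge ha
  have mb := mx_ge hb
  have mc := mx_ge hc
  have ma0 : 0 < mx a a' := by linarith
  have mb0 : 0 < mx b b' := by linarith
  have mc0 : 0 < mx c c' := by linarith
  set M := mx a a' * mx b b' * mx c c' with hM
  have hM0 : 0 < M := by positivity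
  have hMe : ea * eb * ec / 8 ≤ M := by
    calc ea * eb * ec / 8 = (ea / 2) * (eb / 2) * (ec / 2) := by ring
      _ ≤ M := by rw [hM]; gcongr
  have hbig := big_side hΔ ha0 hb0 hc0 ha1 hb1 hc1 ha hb hc hqa hqb hqc hK
  rw [← hM] at hbig
  have hΔM : Δ < M / 8 := by linarith
  have n1 := abs_norm_sub_norm_le (a * b * c) (a' * b' * c')
  have n2 := abs_le.1 (n1.trans htr)
  have hz : 0 < ‖a * b * c‖ := by
    rcases hbig with h | h
    · linarith
    · linarith [n2.1]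
  have hw : 0 < ‖a' * b' * c'‖ := by
    rcases hbig with h | h
    · linarith [n2.2]
    · linarith
  have hz' := norm_pos_iff.1 hz
  have hw' := norm_pos_iff.1 hw
  have za : a ≠ 0 := by rintro rfl; simp at hz'
  have zb : b ≠ 0 := by rintro rfl; simp at hz'
  have zc : c ≠ 0 := by rintro rfl; simp at hz'
  have wa : a' ≠ 0 := by rintro rfl; simp at hw'
  have wb : b' ≠ 0 := by rintro rfl; simp at hw'
  have wc : c' ≠ 0 := by rintro rfl; simp at hw'
  refine ⟨⟨za, wa⟩, ⟨zb, wb⟩, ⟨zc, wc⟩, ?_⟩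
  have hph : ‖ph (a * b * c) - ph (a' * b' * c')‖ ≤ 16 * Δ / M := by
    rcases hbig with h | h
    · have := norm_phase_sub_le hz' hw'
      refine this.trans ?_
      rw [div_le_div_iff₀ hz hM0]
      calc 2 * ‖a * b * c - a' * b' * c'‖ * M ≤ 2 * Δ * M := by gcongr
        _ ≤ 16 * Δ * ‖a * b * c‖ := by nlinarith
    · have := norm_phase_sub_le hw' hz'
      rw [norm_sub_rev, norm_sub_rev (a' * b' * c') (a * b * c)] at this
      refine this.trans ?_
      rw [div_le_div_iff₀ hw hM0]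
      calc 2 * ‖a * b * c - a' * b' * c'‖ * M ≤ 2 * Δ * M := by gcongr
        _ ≤ 16 * Δ * ‖a' * b' * c'‖ := by nlinarith
  have e : uu a a' * uu b b' * uu c c' - 1 =
      -(starRingEnd ℂ (ph (a * b * c)) * (ph (a * b * c) - ph (a' * b' * c'))) := by
    have j := unit_conj (ph_norm hz')
    unfold uu
    rw [ph_mul, ph_mul, ph_mul, ph_mul, map_mul, map_mul] at *
    linear_combination j
  rw [e, norm_neg, norm_mul, RCLike.norm_conj, ph_norm hz', one_mul]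
  exact hph

end Vale.Agent.P321.R3.H101
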