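import Vale.Agent.P321.R3.H101.OfRel5
import Vale.Agent.P321.R3.H257.Triple5
import Vale.Agent.P321.R3.H33.Cells5
import Vale.Agent.P321.R3.H613.NoPhase5

/-! # The induction step with the weight `min 1 (1.26 - |Im s| / (4 Re s))` -/

namespace Vale.Agent.P321.R3.H101

open Complex Finset Vale.Agent.P321.UB Vale.Agent.P321.R2.H613

/-- The induction step. -/
theorem step5 {n i1 : ℕ} {f f' : ℕ → ℂ} {D κ0 κ : ℝ} {s0 : ℂ} (hi : i1 ≤ n)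
    (hreal : ∀ i, (starRingEnd ℂ) (f i) = f i) (hreal' : ∀ i, (starRingEnd ℂ) (f' i) = f' i)
    (hD : 10 ^ 6 ≤ D) (hf : ∀ i ≤ n, ‖f i‖ ≤ 1) (hf' : ∀ i ≤ n, ‖f' i‖ ≤ 1)
    (heq : ∀ i < i1, f i = f' i) (hn : (n : ℝ) + 1 ≤ Real.exp (D / 10 ^ 5))
    (hκl : Real.exp (-(D / 10 ^ 5)) ≤ κ)
    (hκκ : 10 ^ 11 * κ ≤ κ0) (hκ0 : κ0 ≤ 1 / 10 ^ 16) (hs0 : s0.re = κ0)
    (hs0i : |s0.im| ≤ 5 * κ0)
    (hs : Real.exp (-(D * min 1 (1.26 - |s0.im| / (4 * κ0)))) ≤ ‖NN n i1 f f' s0‖) :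
    ∃ g g' F F' : Fin 3 → ℕ → ℂ, (∀ m, Simple6 f f' (g m) (g' m)) ∧
      (∀ m, Derived κ (210 * κ0) (g m) (g' m) (F m) (F' m)) ∧
      ∃ s : ℂ, s.re = 300000 * κ ∧ |s.im| ≤ 1500000 * κ ∧
        Real.exp (-(10.55 * D * min 1 (1.26 - |s.im| / (1200000 * κ)))) ≤
          ‖NN n i1 (fun i => F 0 i * F 1 i * F 2 i) (fun i => F' 0 i * F' 1 i * F' 2 i) s‖ := by
  by_contra hcon
  push Not at hcon
  have hκ : 0 < κ := lt_of_lt_of_le (Real.exp_pos _) hκl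
  have hκ0p : 0 < κ0 := by linarith
  obtain ⟨c, hc⟩ : ∃ c : ℝ, c = 9.2 * D := ⟨_, rfl⟩
  have hc0 : 0 < c := by rw [hc]; linarith
  obtain ⟨θ, hθ0, hκθ⟩ : ∃ θ : ℝ, 0 < θ ∧ κ ^ 2 * θ ^ 2 = c / (21 * 10 ^ 10) := by
    refine ⟨Real.sqrt (c / (21 * 10 ^ 10)) / κ, by positivity, ?_⟩
    rw [div_pow, Real.sq_sqrt (by positivity)]; field_simp
  set ℓ := D / 10 ^ 5 with hℓ
  have hℓ10 : 10 ≤ ℓ := by rw [hℓ, le_div_iff₀ (by norm_num)]; linarith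
  set Δ := Real.exp (-(c + 2 * ℓ)) with hΔ
  have hΔ0 : 0 < Δ := Real.exp_pos _
  have htr : ∀ g g' : Fin 3 → ℕ → ℂ, (∀ m, Simple6 f f' (g m) (g' m)) → ∀ ζ : Fin 3 → ℝ,
      (∀ m, |ζ m| ≤ 205 * κ0) → |ζ 0 + ζ 1 + ζ 2| ≤ 110 * κ →
      ‖VV n i1 θ (100000 * κ) (g 0) (ζ 0) * VV n i1 θ (100000 * κ) (g 1) (ζ 1) *
          VV n i1 θ (100000 * κ) (g 2) (ζ 2) -
        VV n i1 θ (100000 * κ) (g' 0) (ζ 0) * VV n i1 θ (100000 * κ) (g' 1) (ζ 1) *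
          VV n i1 θ (100000 * κ) (g' 2) (ζ 2)‖ ≤ Δ := fun g g' hg ζ h1 h2 =>
    R3.H257.triple5 hi hD hf hf' heq hn hκ hκκ hθ0 hκθ hc
      (fun g g' F F' h1 h2 s h3 h4 => (hcon g g' F F' h1 h2 s h3 h4).le) hg h1 h2
  obtain ⟨L, φ, ξ, hL3, hLκ, hφ, hξ, hsum⟩ := R3.H33.cells5 (i1 := i1) hreal hreal' hD hf hf' hn hκ
    hκκ (hκ0.trans (by norm_num)) hθ0 hκθ hc hs0 hs0i hs
  have hL205 : (L : ℝ) * κ ≤ 205 * κ0 := by linarith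
  obtain ⟨r0, r1, r2, r3⟩ := relations5 (B := 205 * κ0) hi hreal hreal' heq htr hκ
    hL205 hξ
  have hLexp : 10 ^ 6 * (L : ℝ) ≤ Real.exp ℓ / 2 := by
    have h2 : 10 ^ 6 * (L : ℝ) * Real.exp (-ℓ) ≤ 1 / 2 := by
      calc 10 ^ 6 * (L : ℝ) * Real.exp (-ℓ) ≤ 10 ^ 6 * (L : ℝ) * κ := by gcongr
        _ = 10 ^ 6 * ((L : ℝ) * κ) := by ring
        _ ≤ 10 ^ 6 * (205 * κ0) := by gcongr
        _ ≤ 10 ^ 6 * (205 * (1 / 10 ^ 16)) := by gcongr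
        _ ≤ 1 / 2 := by norm_num
    rw [Real.exp_neg, ← div_eq_mul_inv, div_le_iff₀ (Real.exp_pos _)] at h2
    linarith
  have hsmall : 10 ^ 6 * (L : ℝ) * Δ < Real.exp (-c) := by
    have e1 : Real.exp (-c) = Δ * (Real.exp ℓ * Real.exp ℓ) := by
      rw [hΔ, ← Real.exp_add, ← Real.exp_add]
      congr 1
      ring
    rw [e1]
    have h1 : 1 ≤ Real.exp ℓ := Real.one_le_exp (by linarith)
    have h2 : 0 < Real.exp ℓ := Real.exp_pos _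
    calc 10 ^ 6 * (L : ℝ) * Δ ≤ Real.exp ℓ / 2 * Δ := by gcongr
      _ < Real.exp ℓ * Δ := by
          apply mul_lt_mul_of_pos_right _ hΔ0
          linarith
      _ = Δ * (1 * Real.exp ℓ) := by ring
      _ ≤ Δ * (Real.exp ℓ * Real.exp ℓ) := by gcongr
  exact R3.H613.no_phase5 (W := fun j => VV n i1 θ (100000 * κ) f (ξ j))
    (W' := fun j => VV n i1 θ (100000 * κ) f' (ξ j)) hc0 hΔ0.le hφ r0 r1
    (fun j k _ hk h => r2 j k hk h) r3 hsmall hsum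

end Vale.Agent.P321.R3.H101
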