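import Vale.Agent.P321.R3.H101.OfRel7
import Vale.Agent.P321.R3.H257.Triple7
import Vale.Agent.P321.R3.H33.Cells7

/-! # The induction step with the weight `min 1 (2 - |Im s| / (2.3 Re s))` -/

namespace Vale.Agent.P321.R3.H101

open Complex Finset Vale.Agent.P321.UB Vale.Agent.P321.R2.H613

/-- The induction step. -/
theorem step7 {n i1 : ℕ} {f f' : ℕ → ℂ} {D κ0 κ : ℝ} {s0 : ℂ} (hi : i1 ≤ n)
    (hreal : ∀ i, (starRingEnd ℂ) (f i) = f i) (hreal' : ∀ i, (starRingEnd ℂ) (f' i) = f' i)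
    (hD : 10 ^ 6 ≤ D) (hf : ∀ i ≤ n, ‖f i‖ ≤ 1) (hf' : ∀ i ≤ n, ‖f' i‖ ≤ 1)
    (heq : ∀ i < i1, f i = f' i) (hn : (n : ℝ) + 1 ≤ Real.exp (D / 10 ^ 5))
    (hκl : Real.exp (-(D / 10 ^ 5)) ≤ κ)
    (hκκ : 10 ^ 8 * κ ≤ κ0) (hκ0 : κ0 ≤ 1 / 2000) (hs0 : s0.re = κ0)
    (hs0i : |s0.im| ≤ 4.5 * κ0)
    (hs : Real.exp (-(D * min 1 (2 - |s0.im| / (2.3 * κ0)))) ≤ ‖NN n i1 f f' s0‖) :
    ∃ g g' F F' : Fin 3 → ℕ → ℂ, (∀ m, Simple6 f f' (g m) (g' m)) ∧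
      (∀ m, Derived κ (14 * κ0) (g m) (g' m) (F m) (F' m)) ∧
      ∃ s : ℂ, s.re = 3000 * κ ∧ |s.im| ≤ 13500 * κ ∧
        Real.exp (-(21.25 * D * min 1 (2 - |s.im| / (6900 * κ)))) ≤
          ‖NN n i1 (fun i => F 0 i * F 1 i * F 2 i) (fun i => F' 0 i * F' 1 i * F' 2 i) s‖ := by
  by_contra hcon
  push Not at hcon
  have hκ : 0 < κ := lt_of_lt_of_le (Real.exp_pos _) hκl
  have hκ0p : 0 < κ0 := by linarith
  obtain ⟨c, hc⟩ : ∃ c : ℝ, c = 19.1 * D := ⟨_, rfl⟩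
  have hc0 : 0 < c := by rw [hc]; linarith
  obtain ⟨θ, hθ0, hκθ⟩ : ∃ θ : ℝ, 0 < θ ∧ κ ^ 2 * θ ^ 2 = 0.0366 * c / 10 ^ 6 := by
    refine ⟨Real.sqrt (0.0366 * c / 10 ^ 6) / κ, by positivity, ?_⟩
    rw [div_pow, Real.sq_sqrt (by positivity)]; field_simp
  set ℓ := D / 10 ^ 5 with hℓ
  have hℓ10 : 10 ≤ ℓ := by rw [hℓ, le_div_iff₀ (by norm_num)]; linarith
  set Δ := Real.exp (-(c + 2 * ℓ)) with hΔ
  have htr : ∀ g g' : Fin 3 → ℕ → ℂ, (∀ m, Simple6 f f' (g m) (g' m)) → ∀ ζ : Fin 3 → ℝ,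
      (∀ m, |ζ m| ≤ 13 * κ0) → |ζ 0 + ζ 1 + ζ 2| ≤ 6 * κ →
      ‖VV n i1 θ (1000 * κ) (g 0) (ζ 0) * VV n i1 θ (1000 * κ) (g 1) (ζ 1) *
          VV n i1 θ (1000 * κ) (g 2) (ζ 2) -
        VV n i1 θ (1000 * κ) (g' 0) (ζ 0) * VV n i1 θ (1000 * κ) (g' 1) (ζ 1) *
          VV n i1 θ (1000 * κ) (g' 2) (ζ 2)‖ ≤ Δ := fun g g' hg ζ h1 h2 =>
    R3.H257.triple7 hi hD hf hf' heq hn hκ hκκ hθ0 hκθ hc
      (fun g g' F F' h1 h2 s h3 h4 => (hcon g g' F F' h1 h2 s h3 h4).le) hg h1 h2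
  obtain ⟨H, ξ, φ, hH, hHκ, hφ, hξ, hsum⟩ := R3.H33.cells7 (i1 := i1) hreal hreal' hD hf hf' hn hκ
    hκκ hκ0 hθ0 hκθ hc hs0 hs0i hs
  have hHexp : (H : ℝ) ≤ Real.exp ℓ / 100 := by
    push_cast at hHκ
    have h2 : (H : ℝ) * Real.exp (-ℓ) ≤ 1 / 100 := by
      calc (H : ℝ) * Real.exp (-ℓ) ≤ H * κ := by gcongr
        _ ≤ 1 / 100 := by
          have : 0 ≤ (H : ℝ) * κ := by positivity
          linarith
    rw [Real.exp_neg, ← div_eq_mul_inv, div_le_iff₀ (Real.exp_pos _)] at h2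
    linarith
  have hexp10 : (20000 : ℝ) < Real.exp ℓ := by
    have h1 : Real.exp 10 ≤ Real.exp ℓ := Real.exp_le_exp.2 hℓ10
    have h2 : Real.exp 10 = Real.exp 1 ^ 10 := by rw [← Real.exp_nat_mul]; norm_num
    have h3 : (2.7 : ℝ) ^ 10 ≤ Real.exp 1 ^ 10 :=
      pow_le_pow_left₀ (by norm_num) (by linarith [Real.exp_one_gt_d9]) 10
    rw [h2] at h1
    norm_num at h3
    linarith
  have C := cells_of hi (ω := 1000 * κ) (T := c) hreal hreal' heq htr hκ hHκ hφ hξ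
    (Real.exp_pos _).le (by
      have e1 : Real.exp (-c) = Δ * (Real.exp ℓ * Real.exp ℓ) := by
        rw [hΔ, ← Real.exp_add, ← Real.exp_add]
        congr 1
        ring
      rw [e1]
      have hΔ0 : 0 < Δ := Real.exp_pos _
      calc 10 ^ 6 * (H : ℝ) * Δ ≤ 10 ^ 6 * (Real.exp ℓ / 100) * Δ := by gcongr
        _ = Δ * (10000 * Real.exp ℓ) := by ring
        _ < Δ * (Real.exp ℓ * Real.exp ℓ) := by gcongr; linarith)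
  exact no_phase7 (by omega) C hsum

end Vale.Agent.P321.R3.H101
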