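import Vale.Agent.P321.R3.H101.Mono
import Vale.Agent.P321.Bdl.B8

/-! # The superpolynomial lower bound, uniformly in the deletion probability -/

namespace Vale.Agent.P321.R3.H101

open Filter Topology
open scoped unitInterval

/-- **Uniform lower bound**: one `n₀` for all deletion probabilities `q ≥ q₀`. -/
theorem lower_uniform : ∃ c : ℝ, 0 < c ∧ ∀ q₀ : ℝ, 0 < q₀ → ∃ n₀ : ℕ, ∀ n : ℕ, n₀ ≤ n →
    ∀ q : I, q₀ ≤ q → (⌈(n : ℝ) ^ (c * Real.log (Real.log n))⌉₊ : ℕ∞) ≤ T q n := by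
  refine ⟨1 / 65536, by norm_num, fun q₀ h₀ => ?_⟩
  have hm0 : 0 < min q₀ (1 / 2) := lt_min h₀ (by norm_num)
  have hm1 : min q₀ (1 / 2) < 1 := (min_le_right _ _).trans_lt (by norm_num)
  obtain ⟨n₀, hn⟩ := rate_T (MA.smallDS (A := 24) le_rfl)
    ⟨min q₀ (1 / 2), hm0.le, hm1.le⟩ hm0 hm1
  exact ⟨n₀, fun n h q hq => (hn n h).1.trans (T_mono_q ((min_le_left _ _).trans hq) n)⟩

/-- The lower bound holds for all deletion probabilities `q ≥ δ n`, where `δ n → 0`. -/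
theorem lower_vanishing : ∃ c : ℝ, 0 < c ∧ ∃ δ : ℕ → ℝ, Tendsto δ atTop (𝓝 0) ∧
    ∀ (n : ℕ) (q : I), δ n ≤ q → (⌈(n : ℝ) ^ (c * Real.log (Real.log n))⌉₊ : ℕ∞) ≤ T q n := by
  obtain ⟨c, hc, h⟩ := lower_uniform
  refine ⟨c, hc, ?_⟩
  have hk : ∀ k : ℕ, ∃ N : ℕ, ∀ n : ℕ, N ≤ n → ∀ q : I, 1 / ((k : ℝ) + 1) ≤ q →
      (⌈(n : ℝ) ^ (c * Real.log (Real.log n))⌉₊ : ℕ∞) ≤ T q n := fun k => h _ (by positivity)
  choose N hN using hk
  classical
  set S : ℕ → Finset ℕ := fun n => (Finset.range (n + 1)).filter fun k => N k ≤ n with hS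
  refine ⟨fun n => if g : (S n).Nonempty then 1 / (((S n).max' g : ℝ) + 1) else 2, ?_, ?_⟩
  · rw [Metric.tendsto_atTop]
    intro ε hε
    obtain ⟨k, hk⟩ := exists_nat_one_div_lt hε
    refine ⟨max k (N k), fun n hn => ?_⟩
    have hmem : k ∈ S n := by
      simp only [hS, Finset.mem_filter, Finset.mem_range]
      exact ⟨Nat.lt_succ_of_le ((le_max_left _ _).trans hn), (le_max_right _ _).trans hn⟩
    have g : (S n).Nonempty := ⟨k, hmem⟩
    rw [dif_pos g, Real.dist_eq, sub_zero, abs_of_pos (by positivity)]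
    refine lt_of_le_of_lt ?_ hk
    apply one_div_le_one_div_of_le (by positivity)
    have : k ≤ (S n).max' g := Finset.le_max' _ _ hmem
    have h2 : (k : ℝ) ≤ ((S n).max' g : ℝ) := by exact_mod_cast this
    linarith
  · intro n q hq
    by_cases g : (S n).Nonempty
    · simp only [dif_pos g] at hq
      have h1 := Finset.max'_mem _ g
      simp only [hS, Finset.mem_filter] at h1
      exact hN _ n h1.2 q hq
    · simp only [dif_neg g] at hq
      linarith [q.2.2]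

end Vale.Agent.P321.R3.H101
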